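import Vale.Agent.P216E.Inst
import Vale.Agent.P216LS.PoU
import Vale.Agent.P216MP.Vs
import Vale.Agent.P210.R2.H934.Ibp

/-! # P216EO: the static calculus of a closed Riemannian manifold, the formula of Green -/

open scoped Manifold ContDiff Topology NNReal
open Set MeasureTheory
open Filter hiding comap comap_id

set_option maxSynthPendingDepth 3
set_option linter.unusedSectionVars false

noncomputable section

namespace Vale.Agent.P216EO

open P216R P216LS P216E
open P216ST (Sm0)
open P210.R2.H53 (gradG gamG lapG dens)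

variable {E : Type} [NormedAddCommGroup E] [NormedSpace ℝ E] [FiniteDimensional ℝ E]
  {M : Type} [TopologicalSpace M] [ChartedSpace E M] [IsManifold 𝓘(ℝ, E) ∞ M]
  {g : Ten E M} {U K : Set M} {φ ψ k : M → ℝ} {x a : M} {u : E}

/-- the Laplacian read in any chart -/
theorem lap_rd (hg : Met g U) (hu : u ∈ dom E a U) (h : SR E φ ((chartAt E a).symm u)) :
    lap g φ ((chartAt E a).symm u) = lapG (co g a) (rd E φ a) u := by
  rw [← (li_comap hg (ld_symm a) hu.1 hu.2).lap (h.rd.of_le (by norm_cast)), lap_model]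
  rfl

/-- the gradient pairing read in any chart -/
theorem gam_rd (hg : Met g U) (hu : u ∈ dom E a U) (h : SR E φ ((chartAt E a).symm u))
    (h' : SR E ψ ((chartAt E a).symm u)) :
    gam g φ ψ ((chartAt E a).symm u) = gamG (co g a) (rd E φ a) (rd E ψ a) u :=
  gam_comp hg (ld_symm a) hu.1 hu.2 h h'

theorem sm0_lap (hg : Met g U) (h : Sm0 E φ U) : Sm0 E (lap g φ) U := fun a u hu => by
  have ho := (isOpen_dom (E := E) a hg.isOpen).mem_nhds hu
  have h1 := ((ps_const ((hg.smooth a).contDiffAt ho) univ (0 : ℝ)).lapG (mem_univ _)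
    ((hg.isMetricOn a).pos u hu) (ps_const ((h a).contDiffAt ho) _ _)).contDiffAt (mem_univ _)
  refine (h1.congr_of_eventuallyEq ?_).contDiffWithinAt
  filter_upwards [ho] with w hw
  exact lap_rd hg hw ((sm0_iff hg.isOpen).1 h _ hw.2)

theorem sm0_Sc (hg : Met g U) : Sm0 E (Sc g) U := fun a u hu => by
  have ho := (isOpen_dom (E := E) a hg.isOpen).mem_nhds hu
  have h1 := ((ps_const ((hg.smooth a).contDiffAt ho) univ (0 : ℝ)).scG (mem_univ _)
    ((hg.isMetricOn a).pos u hu)).contDiffAt (mem_univ _)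
  refine (h1.congr_of_eventuallyEq ?_).contDiffWithinAt
  filter_upwards [ho] with w hw
  exact hg.rd_Sc hw

theorem gam_comm (hg : Met g U) (hx : x ∈ U) (φ ψ : M → ℝ) : gam g φ ψ x = gam g ψ φ x :=
  P210.R2.H934.gamG_comm (localRiem_iff.2 (hg.isMetricOn x)) (pt_mem_dom hx) _ _

theorem dF_add (h : SR E φ x) (h' : SR E ψ x) :
    dF E (fun y => φ y + ψ y) x = dF E φ x + dF E ψ x := fderiv_fun_add h.diff h'.diff

theorem dF_comp {F : ℝ → ℝ} (h : SR E φ x) (hF : DifferentiableAt ℝ F (φ x)) :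
    dF E (fun y => F (φ y)) x = deriv F (φ x) • dF E φ x := by
  have h1 : HasDerivAt F (deriv F (φ x)) (rd E φ x (pt E x)) := by
    rw [rd_pt]; exact hF.hasDerivAt
  exact (h1.comp_hasFDerivAt _ h.diff.hasFDerivAt).fderiv

theorem gam_add (g : Ten E M) (h : SR E φ x) (h' : SR E ψ x) (k : M → ℝ) :
    gam g (fun y => φ y + ψ y) k x = gam g φ k x + gam g ψ k x := by
  simp only [gam_dF, dF_add h h', add_apply]

theorem gam_comp' (g : Ten E M) {F : ℝ → ℝ} (h : SR E φ x) (hF : DifferentiableAt ℝ F (φ x))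
    (k : M → ℝ) : gam g (fun y => F (φ y)) k x = deriv F (φ x) * gam g φ k x := by
  simp only [gam_dF, dF_comp h hF, smul_apply, smul_eq_mul]

theorem gam_sum {ι : Type} {s : Finset ι} {φ : ι → M → ℝ} (g : Ten E M)
    (h : ∀ i ∈ s, SR E (φ i) x) (k : M → ℝ) :
    gam g (fun y => ∑ i ∈ s, φ i y) k x = ∑ i ∈ s, gam g (φ i) k x := by
  simp only [gam_dF, dF_sum h, sum_apply]

theorem gam_zero (g : Ten E M) (h : φ =ᶠ[𝓝 x] fun _ => 0) (k : M → ℝ) : gam g φ k x = 0 := by
  simp only [gam_dF, dF_congr h, dF_const, zero_apply]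

theorem lap_comp' (g : Ten E M) {F : ℝ → ℝ} (h : SR E φ x) (hF : ContDiffAt ℝ ∞ F (φ x)) :
    lap g (fun y => F (φ y)) x =
      deriv F (φ x) * lap g φ x + deriv (deriv F) (φ x) * gam g φ φ x := by
  refine P216MP.lap_comp h.rd ?_ ?_
  · filter_upwards [(hF.of_le (m := 1) (by norm_cast)).eventually (by simp)] with s hs
    exact (hs.differentiableAt (by simp)).hasDerivAt
  · have h1 : ContDiffAt ℝ 1 (fun s => fderiv ℝ F s 1) (φ x) :=
      (hF.fderiv_right (m := 1) (by norm_cast)).clm_apply contDiffAt_const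
    exact (h1.differentiableAt (by simp)).hasDerivAt

/-- a function with compact support in a chart domain, extended by zero in the chart -/
theorem ext_chart (hU : IsOpen U) (hK : IsCompact K) (hKU : K ⊆ U ∩ (chartAt E a).source)
    (h : Sm0 E φ U) (h0 : ∀ y ∈ U, y ∉ K → φ y = 0) :
    ContDiff ℝ ∞ ((dom E a U).indicator (rd E φ a)) ∧
      HasCompactSupport ((dom E a U).indicator (rd E φ a)) ∧
      tsupport ((dom E a U).indicator (rd E φ a)) ⊆ dom E a U := by
  have hc : IsCompact (chartAt E a '' K) :=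
    hK.image_of_continuousOn ((chartAt E a).continuousOn.mono fun y hy => (hKU hy).2)
  have hz : ∀ z ∉ chartAt E a '' K, (dom E a U).indicator (rd E φ a) z = 0 := fun z hz => by
    by_cases hd : z ∈ dom E a U
    · rw [indicator_of_mem hd]
      exact h0 _ hd.2 fun hk => hz ⟨_, hk, (chartAt E a).right_inv hd.1⟩
    · exact indicator_of_notMem hd _
  have hs : tsupport ((dom E a U).indicator (rd E φ a)) ⊆ chartAt E a '' K :=
    closure_minimal (fun z h => by_contra fun h' => h (hz z h')) hc.isClosed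
  have hd : chartAt E a '' K ⊆ dom E a U := by
    rintro _ ⟨y, hy, rfl⟩; exact mem_dom (hKU hy).2 (hKU hy).1
  refine ⟨contDiff_iff_contDiffAt.2 fun z => ?_,
    hc.of_isClosed_subset (isClosed_tsupport _) hs, hs.trans hd⟩
  by_cases hk : z ∈ chartAt E a '' K
  · have ho := (isOpen_dom (E := E) a hU).mem_nhds (hd hk)
    exact ((h a).contDiffAt ho).congr_of_eventuallyEq
      (mem_of_superset ho fun w hw => indicator_of_mem hw _)
  · exact contDiffAt_const.congr_of_eventuallyEq
      (mem_of_superset (hc.isClosed.isOpen_compl.mem_nhds hk) hz)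

variable [MeasurableSpace E] [BorelSpace E] [MeasurableSpace M] [BorelSpace M]

/-- the formula of Green for a test function supported in a chart -/
theorem green_chart (hg : Met g U) (hH : Hs U) (hK : IsCompact K)
    (hKU : K ⊆ U ∩ (chartAt E a).source) (h : Sm0 E φ U) (h0 : ∀ y ∈ U, y ∉ K → φ y = 0)
    (hk : Sm0 E k U) : ∫ x in U, φ x * lap g k x ∂vol g = -∫ x in U, gam g φ k x ∂vol g := by
  obtain ⟨h1, h2, h3⟩ := ext_chart hg.isOpen hK hKU h h0
  obtain ⟨C, hC⟩ := h1.lipschitzWith_of_hasCompactSupport h2 (by simp)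
  have hR := localRiem_iff.2 (hg.isMetricOn a)
  have ho := isOpen_dom (E := E) a hg.isOpen
  have e := (P210.R2.H934.ibp_metric (haar E) hR (hk a) hC h2 h3).2
  rw [integral_chart' hg a (φ := fun x => φ x * lap g k x) fun y hy hs => by
      rw [h0 y hy fun hk => hs (hKU hk).2, zero_mul],
    integral_chart' hg a (φ := gam g φ k) fun y hy hs => gam_zero g
      (mem_of_superset ((hH.isOpen_diff hg.isOpen hK (hKU.trans inter_subset_left)).mem_nhds
        ⟨hy, fun hk => hs (hKU hk).2⟩) fun w hw => h0 w hw.1 hw.2) k]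
  have e1 : ∀ z ∈ dom E a U, dens (co g a) z * rd E (gam g φ k) a z =
      dens (co g a) z * gamG (co g a) (rd E k a) ((dom E a U).indicator (rd E φ a)) z :=
    fun z hz => by
    rw [P210.R2.H934.gamG_comm hR hz, gamG_congr rfl
      (mem_of_superset (ho.mem_nhds hz) fun w hw => indicator_of_mem hw (rd E φ a))
      (EventuallyEq.refl _ _)]
    exact congrArg _ (gam_rd hg hz ((sm0_iff hg.isOpen).1 h _ hz.2)
      ((sm0_iff hg.isOpen).1 hk _ hz.2))
  have e2 : ∀ z ∈ dom E a U, dens (co g a) z * rd E (fun x => φ x * lap g k x) a z =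
      dens (co g a) z * ((dom E a U).indicator (rd E φ a) z * lapG (co g a) (rd E k a) z) :=
    fun z hz => by
    rw [indicator_of_mem hz, ← lap_rd hg hz ((sm0_iff hg.isOpen).1 hk _ hz.2)]
    rfl
  rw [setIntegral_congr_fun ho.measurableSet e1, setIntegral_congr_fun ho.measurableSet e2, e,
    neg_neg]

theorem int_of (hg : Met g U) (hc : IsCompact U) (h : ContinuousOn φ U) :
    IntegrableOn φ U (vol g) :=
  integrableOn_vol hg hc subset_rfl hg.isOpen.measurableSet h

/-- **the formula of Green** on a closed manifold -/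
theorem green (hg : Met g U) (hc : IsCompact U) (hH : Hs U) (h : Sm0 E φ U) (hk : Sm0 E k U) :
    ∫ x in U, φ x * lap g k x ∂vol g = -∫ x in U, gam g φ k x ∂vol g := by
  have hU := hg.isOpen
  obtain ⟨s, χ, K, h1, h2⟩ := exists_pou (E := E) hU hc hH (fun x => (chartAt E x).source)
    fun x _ => chart_source_mem_nhds E x
  have h3 : ∀ i ∈ s, ∀ y ∈ U, SR E (fun y => χ i y * φ y) y := fun i hi y hy =>
    ((h1 i hi).2.2.2.1 y hy).mul ((sm0_iff hU).1 h y hy)
  have h4 : ∀ i ∈ s, Sm0 E (fun y => χ i y * φ y) U := fun i hi => (sm0_iff hU).2 (h3 i hi)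
  have h5 : ∀ y ∈ U, ∑ i ∈ s, χ i y * φ y = φ y := fun y hy => by
    rw [← Finset.sum_mul, h2 y hy, one_mul]
  have e1 : ∀ y ∈ U, φ y * lap g k y = ∑ i ∈ s, χ i y * φ y * lap g k y := fun y hy => by
    rw [← Finset.sum_mul, h5 y hy]
  have e2 : ∀ y ∈ U, gam g φ k y = ∑ i ∈ s, gam g (fun y => χ i y * φ y) k y := fun y hy => by
    rw [← gam_sum g fun i hi => h3 i hi y hy]
    exact gam_congr rfl (mem_of_superset (hU.mem_nhds hy) fun w hw => (h5 w hw).symm)
      (EventuallyEq.refl _ _)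
  rw [setIntegral_congr_fun hU.measurableSet e1, setIntegral_congr_fun hU.measurableSet e2,
    integral_finsetSum (f := fun i y => χ i y * φ y * lap g k y) _ fun i hi => int_of hg hc
      ((sm0_cont hU (h4 i hi)).mul (sm0_cont hU (sm0_lap hg hk))),
    integral_finsetSum _ fun i hi => int_of hg hc (sm0_cont hU (sm0_gam hg (h4 i hi) hk)),
    ← Finset.sum_neg_distrib]
  refine Finset.sum_congr rfl fun i hi => green_chart hg hH (h1 i hi).2.1 (h1 i hi).2.2.1
    (h4 i hi) (fun y _ hy => ?_) hk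
  rw [(h1 i hi).2.2.2.2.2 y hy, zero_mul]

theorem tri_ok (hg : Met g U) (hc : IsCompact U) (hH : Hs U) : (tri g U).Ok := by
  have hU := hg.isOpen
  have S : ∀ {f : M → ℝ}, Sm0 E f U → ∀ x ∈ U, SR E f x := fun h => (sm0_iff hU).1 h
  have ev : ∀ {f h : M → ℝ}, EqOn f h U → ∀ x ∈ U, f =ᶠ[𝓝 x] h := fun e x hx =>
    mem_of_superset (hU.mem_nhds hx) e
  exact
  { ae := ae_restrict_mem hU.measurableSet
    int := fun f hf => int_of hg hc hf
    cont := fun f hf => sm0_cont hU hf
    add := fun f hf h hh => (sm0_iff hU).2 fun x hx => (S hf x hx).add (S hh x hx)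
    comp := fun f hf F hF => (sm0_iff hU).2 fun x hx => (hF x hx).contMDiffAt.comp x (S hf x hx)
    ΓS := fun f hf h hh => sm0_gam hg hf hh
    LS := fun f hf => sm0_lap hg hf
    RS := sm0_Sc hg
    Γ_comm := fun f _ h _ x hx => gam_comm hg hx f h
    Γ_nonneg := fun f _ x hx => gam_nonneg hg hx f
    Γ_add := fun f hf h hh k _ x hx => gam_add g (S hf x hx) (S hh x hx) k
    Γ_comp := fun f hf F hF k _ x hx =>
      gam_comp' g (S hf x hx) ((hF x hx).differentiableAt (by simp)) k
    L_add := fun f hf h hh x hx => P216MP.lap_add (S hf x hx).rd (S hh x hx).rd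
    L_comp := fun f hf F hF x hx => lap_comp' g (S hf x hx) (hF x hx)
    L_congr := fun f h e x hx => lap_congr (EventuallyEq.refl _ _) (ev e x hx)
    Γ_congr := fun f h k e x hx => gam_congr rfl (ev e x hx) (EventuallyEq.refl _ _)
    green := fun f hf h hh => green hg hc hH hf hh }

variable (E) in
theorem tok : TOK E := fun _ _ _ _ _ _ _ _ hg hc hH => tri_ok hg hc hH

variable (E) in
theorem ttr : TTR E := by
  intro M _ _ _ _ _ g U U' C B B' hg hc hH hg' hc' _ hC hCU hCU' hB hB' hβ φ' hφ' h0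
  have hU := hg.isOpen
  have hU' := hg'.isOpen
  have he : ∀ x ∈ U', U'.indicator φ' =ᶠ[𝓝 x] φ' := fun x hx =>
    mem_of_superset (hU'.mem_nhds hx) fun y hy => indicator_of_mem hy _
  have hz : ∀ x ∉ C, U'.indicator φ' x = 0 := fun x hx => by
    by_cases h : x ∈ U'
    · rw [indicator_of_mem h]; exact h0 x h hx
    · exact indicator_of_notMem h _
  have hφ : Sm0 E (U'.indicator φ') U := (sm0_iff hU).2 fun x hx =>
    sr_of_supp hU hH hC hCU hCU' (fun y hy => ((sm0_iff hU').1 hφ' y hy.2).congr_of_eventuallyEq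
      (he y hy.2)) (fun y hy => hz y hy.2) hx
  have r1 : ∀ f : M → ℝ, (∀ x ∈ U, x ∉ C → f x = 0) →
      ∫ x in U, f x ∂vol g = ∫ x in U ∩ U', f x ∂vol g := fun f hf =>
    setIntegral_eq_of_subset_of_forall_sdiff_eq_zero hU.measurableSet inter_subset_left
      fun x hx => hf x hx.1 fun h => hx.2 ⟨hx.1, hCU' h⟩
  have r2 : ∀ f : M → ℝ, (∀ x ∈ U', x ∉ C → f x = 0) →
      ∫ x in U', f x ∂vol g = ∫ x in U ∩ U', f x ∂vol g := fun f hf =>
    setIntegral_eq_of_subset_of_forall_sdiff_eq_zero hU'.measurableSet inter_subset_right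
      fun x hx => hf x hx.1 fun h => hx.2 ⟨hCU h, hx.1⟩
  have hm := (hU.inter hU').measurableSet
  refine ⟨_, hφ, fun G hG => ?_, fun β hb => ?_⟩
  · refine (r1 _ fun x _ hx => by rw [hz x hx, hG]).trans
      (Eq.trans ?_ (r2 _ fun x h hx => by rw [h0 x h hx, hG]).symm)
    refine setIntegral_congr_fun hm fun x hx => ?_
    have e : lap g (U'.indicator φ') x = lap g φ' x := lap_congr (EventuallyEq.refl _ _) (he x hx.2)
    simp only [e, indicator_of_mem hx.2]
  · obtain ⟨β', hb', hle⟩ := hβ β hb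
    refine ⟨β', hb', (r2 _ fun x h hx => by rw [h0 x h hx]; simp).trans_le
      (LE.le.trans_eq ?_ (r1 _ fun x _ hx => by rw [hz x hx]; simp).symm)⟩
    refine setIntegral_mono_on
      ((int_of hg' hc' ((hB' β' hb').1.mul ((sm0_cont hU' hφ').pow 2))).mono_set inter_subset_right)
      ((int_of hg hc ((hB β hb).1.mul ((sm0_cont hU hφ).pow 2))).mono_set inter_subset_left)
      hm fun x hx => ?_
    rw [indicator_of_mem hx.2]
    by_cases h : x ∈ C
    · exact mul_le_mul_of_nonneg_right (hle x h) (sq_nonneg _)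
    · rw [h0 x hx.2 h]; simp

end Vale.Agent.P216EO
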