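import Vale.Agent.P216EO.Cnloc

/-! # P216EO: canonical neighbourhoods at points of large curvature -/

open scoped Manifold ContDiff Topology ENNReal
open Set MeasureTheory Filter Real

set_option maxSynthPendingDepth 3
set_option linter.unusedSectionVars false

noncomputable section

namespace Vale.Agent.P216EO

open P216R P216FA P216DC P216BF
open P216C (Ori)

/-- the canonical neighbourhoods of kappa solutions, with given constants -/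
def KC (κ ε w A C : ℝ) : Prop :=
  ∀ (X : Mf) (g : ℝ → Ten E3 X.M) (U : Set X.M) (x : X.M), KS κ g U → Ori U → x ∈ U →
    Sc (g 0) x = 1 → DT C (A + 1) (g 0) U x ∧ NTp ε A w (g 0) U x

/-- the two possible blow up limits, with given constants -/
def LO (c : ℕ → ℝ) (e : ℝ) : Prop :=
  ∀ P : Cs, P.c = c → P.Ok e →
    ∀ (ι : Type) (l : Ultrafilter ι) (X : ι → Mf) (F : ∀ n, Dat (X n).M), BU P l F →
      Tendsto (fun n => (F n).δ) l (𝓝 0) → KOut P.κ l F ∨ SOut l F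

/-- the property `Φ` holds at all points of large curvature -/
def Cl (c : ℕ → ℝ) (κ CD : ℝ) (n : ℕ) (Φ : ∀ X : Mf, Dat X.M → Prop) : Prop :=
  ∀ (X : Mf) (F : Dat X.M) (r : ℝ), Adm c κ CD F r → F.δ ≤ 1 / (n + 1) →
    16 * ((n : ℝ) + 1) ^ 2 ≤ r ^ 2 * sc F → Φ X F

variable {c : ℕ → ℝ} {e κ CD ε C C₀ A A₀ w L : ℝ}

theorem cl_of {Φ : ℕ → ∀ X : Mf, Dat X.M → Prop}
    (h : ∀ (X : ℕ → Mf) (F : ∀ n, Dat (X n).M) (r : ℕ → ℝ), (∀ n, Adm c κ CD (F n) (r n) ∧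
      (F n).δ ≤ 1 / (n + 1) ∧ 16 * ((n : ℝ) + 1) ^ 2 ≤ r n ^ 2 * sc (F n) ∧ ¬ Φ n (X n) (F n)) →
      False) : ∃ n, Cl c κ CD n (Φ n) := by
  by_contra hn
  simp only [Cl, not_exists, not_forall] at hn
  choose X F r h1 h2 h3 h4 using hn
  exact h X F r fun n => ⟨h1 n, h2 n, h3 n, h4 n⟩

theorem Cl.use {n m : ℕ} {Φ : ∀ X : Mf, Dat X.M → Prop} (h : Cl c κ CD n Φ) (hm : n ≤ m)
    {X : Mf} {F : Dat X.M} {r : ℝ} (h1 : Adm c κ CD F r) (h2 : F.δ ≤ 1 / (m + 1))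
    (h3 : 16 * ((n : ℝ) + 1) ^ 2 ≤ r ^ 2 * sc F) : Φ X F :=
  h X F r h1 (h2.trans (by gcongr)) h3

theorem tendsto_delta {δ : ℕ → ℝ} (h0 : ∀ n, 0 < δ n) (h : ∀ n, δ n ≤ 1 / (n + 1)) :
    Tendsto δ (hyperfilter ℕ) (𝓝 0) :=
  (squeeze_zero (fun n => (h0 n).le) h tendsto_one_div_add_atTop_nhds_zero_nat).mono_left
    Nat.hyperfilter_le_atTop

theorem tendsto_r {r : ℕ → ℝ} (h : ∀ n : ℕ, (n : ℝ) ≤ r n) : Tendsto r (hyperfilter ℕ) atTop :=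
  (tendsto_atTop_mono h tendsto_natCast_atTop_atTop).mono_left Nat.hyperfilter_le_atTop

theorem ev_ge (m : ℕ) : ∀ᶠ n in (hyperfilter ℕ : Filter ℕ), m ≤ n :=
  Nat.hyperfilter_le_atTop (eventually_ge_atTop m)

variable (hS : SCALE) (hT : TR) (hA : ALS) (hL : LO c e)
include hS hT hA hL

/-- what the blow up limit says about the base points -/
theorem out {P : Cs} (hc : P.c = c) (hP : P.Ok e) {ι : Type} {l : Ultrafilter ι} {X : ι → Mf}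
    {F : ∀ n, Dat (X n).M} (hB : BU P l F) (hδ : Tendsto (fun n => (F n).δ) l (𝓝 0))
    (hK : KC P.κ P.ε P.w A₀ C₀) (h0 : 0 < C₀) :
    (∀ A, ∃ C > 0, ∀ᶠ n in l, DT C A ((F n).g 0) (F n).U (F n).x) ∧
    (∃ A, ∀ᶠ n in l, NT P.ε A P.w ((F n).g 0) (F n).U (F n).x) ∧
    ((∀ η ≥ 1, ¬ Tendsto (fun n => (F n).h) l (𝓝 η)) →
      ∀ᶠ n in l, CN P.ε (2 * C₀) A₀ P.w ((F n).g 0) (F n).U (F n).x) := by
  have b1 : ∀ n, Sl (F n).b (F n).d (F n).T₀ (F n).T₁ (F n).U 0 := fun n =>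
    (hB.all n).2.1 ▸ (hB.all n).1.sl
  have b2 : ∀ n, Clo ((F n).g 0) (F n).U ∧ (F n).x ∈ (F n).U ∧ Sc ((F n).g 0) (F n).x = 1 :=
    fun n => ⟨hS.clo _ _ _ _ _ (hB.all n).1 (b1 n), (hB.all n).1.mem, (hB.all n).2.2⟩
  have one : ∀ L : LimF l F, Sc L.h L.o = 1 := fun L => tendsto_nhds_unique
    (L.conv.sc_ap (Eventually.of_forall fun n => (b2 n).1.met) (mem_univ _) L.ap)
    (tendsto_const_nhds.congr fun n => (b2 n).2.2.symm)
  have dt : ∀ L : LimF l F, (∀ p, 0 < Sc L.h p) → ∀ A, ∃ C > 0,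
      ∀ᶠ n in l, DT C A ((F n).g 0) (F n).U (F n).x := fun L h A => by
    obtain ⟨t1, -, t3, -⟩ := hT ι l X _ _ _ L b2
    obtain ⟨C, h1, h2⟩ := t3 h (A + 1)
    exact ⟨2 * C, by positivity, t1 C A h1 h2⟩
  rcases hL P hc hP ι l X F hB hδ with ⟨L, G, h1, h2, -⟩ | ⟨L, η, h1, h2, h3, h4, h5, V, h6⟩
  · obtain ⟨t1, t2, -, t4⟩ := hT ι l X _ _ _ L b2
    have e0 : G 0 = L.h := funext fun p => h1.zero (mem_univ p)
    have k := hK ⟨L.X⟩ G univ L.o h2 (t4 fun n => (hB.all n).1.ori _ _ (b1 n)) (mem_univ _) (e0 ▸ one L)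
    rw [e0] at k
    have k2 := t2 _ _ _ hP.ε0 hP.w0 k.2
    refine ⟨dt L fun p => e0 ▸ h2.pos 0 le_rfl p (mem_univ _), ⟨_, k2⟩, fun _ => ?_⟩
    filter_upwards [t1 _ _ h0 k.1, k2] with n k3 k4
    exact ⟨(b2 n).2.2 ▸ one_pos, k3, k4⟩
  · obtain ⟨-, t2, -, -⟩ := hT ι l X _ _ _ L b2
    obtain ⟨A, k⟩ := ntp_of (X := ⟨L.X⟩) (ε := P.ε) hA ⟨L.conv.met, hs_of_t2 _, isPreconnected_univ,
      lim_cpl L, fun p _ => h3 p⟩ (mem_univ L.o) hP.w0 h5 h6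
    refine ⟨dt L fun p => (mul_pos_iff_of_pos_left (pow_pos h1 2)).1 (one_pos.trans_le (h4 p)),
      ⟨A, t2 _ _ _ hP.ε0 hP.w0 k⟩, fun h => (h η ?_ h2).elim⟩
    have := h4 L.o
    rw [one L] at this
    nlinarith

/-- point picking and blow up, when the limit is a kappa solution -/
theorem klim (hP : Cs.Ok ⟨c, κ, CD, ε, C, A, w, 5⟩ e) (hK : KC κ ε w A C₀) (h0 : 0 < C₀)
    (hC : 2 * C₀ ≤ C) {X : ℕ → Mf} {F : ∀ n, Dat (X n).M} {r : ℕ → ℝ}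
    (h : ∀ n, Adm c κ CD (F n) (r n) ∧ (F n).δ ≤ 1 / (n + 1) ∧
      16 * ((n : ℝ) + 1) ^ 2 ≤ r n ^ 2 * sc (F n) ∧ ¬ Gd ε C A w (F n))
    (hη : ∀ F' : ∀ n, Dat (X n).M, (∀ n, (F' n).h = (F n).h ∧ (F' n).δ = (F n).δ ∧
      sc (F n) ≤ sc (F' n) ∧ ¬ Gd ε C A w (F' n) ∧ Adm c κ CD (F' n) ((n + 1) / √(sc (F' n)))) →
      ∀ η ≥ 1, ¬ Tendsto (fun n => √(sc (F' n)) * (F n).h) (hyperfilter ℕ) (𝓝 η)) : False := by
  choose F' p1 p2 p3 p4 p5 p6 using fun n => (h n).1.pick hS (N := n + 1) (by positivity)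
    (h n).2.2.1 (h n).2.2.2
  have q0 : ∀ n, 0 < sc (F' n) := fun n => sqrt_pos.1 ((div_pos_iff_of_pos_left
    (by positivity)).1 (p5 n).pos)
  have e : ∀ n : ℕ, √(sc (F' n)) * ((n + 1) / √(sc (F' n))) = n + 1 := fun n =>
    mul_div_cancel₀ _ (sqrt_pos.2 (q0 n)).ne'
  have hB := bu_of hS (l := hyperfilter ℕ) (F := fun n => (F' n).rs (sc (F' n))) (L := 5)
    (ε := ε) (C := C) (A := A) (w := w)
    (fun n => ⟨(p5 n).rs hS (q0 n), rfl, (sc_rs (q0 n)).trans (div_self (q0 n).ne')⟩)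
    (tendsto_r fun n => by rw [e]; linarith) (Eventually.of_forall fun n W s y H =>
      (p5 n).cnr_rs hS (q0 n) (p6 n) W s y (reg_mono H
        (half_le_self ((p5 n).rs hS (q0 n)).pos.le) (half_le_self (sq_nonneg _))))
  obtain ⟨n, hn⟩ := ((out hS hT hA hL rfl hP hB (tendsto_delta (fun n => (p5 n).bas.dpos)
    fun n => (p2 n).trans_le (h n).2.1) hK h0).2.2
    fun η h1 h2 => hη F' (fun n => ⟨p1 n, p2 n, p3 n, p4 n, p5 n⟩) η h1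
      (h2.congr fun n => congrArg _ (p1 n))).exists
  exact p4 n (gd_mono hS ((gd_rs hS (p5 n).bas (q0 n)).1 hn) (by positivity) hC)

/-- the first regime: far above the scale of the surgeries -/
theorem step1 (hP : Cs.Ok ⟨c, κ, CD, ε, C, A, w, 5⟩ e) (hK : KC κ ε w A C₀) (h0 : 0 < C₀)
    (hC : 2 * C₀ ≤ C) : ∃ n : ℕ, Cl c κ CD n fun _ F =>
      ((n : ℝ) + 1) ^ 2 ≤ F.h ^ 2 * sc F → Gd ε C A w F := by
  refine cl_of fun X F r h => klim hS hT hA hL hP hK h0 hC (fun n => ⟨(h n).1, (h n).2.1,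
    (h n).2.2.1, fun H => (h n).2.2.2 fun _ => H⟩) fun F' H η _ h2 => ?_
  refine not_tendsto_nhds_of_tendsto_atTop (tendsto_r fun n => ?_) η h2
  have h3 := (Classical.not_imp.1 (h n).2.2.2).1
  have h4 := (h n).1.bas.hpos
  have h5 : 0 ≤ sc (F' n) := by
    refine le_trans ?_ (H n).2.2.1
    exact ((mul_pos_iff_of_pos_left (pow_pos h4 2)).1 (lt_of_lt_of_le (by positivity) h3)).le
  refine abs_le_of_sq_le_sq' ?_ (by positivity) |>.2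
  rw [mul_pow, sq_sqrt h5]
  nlinarith [mul_le_mul_of_nonneg_left (H n).2.2.1 (sq_nonneg (F n).h), n.cast_nonneg (α := ℝ)]

/-- the second regime: normalised sequences above the scale of the surgeries -/
theorem step2 (hP : Cs.Ok ⟨c, κ, CD, ε, C, A, w, 5⟩ e) (hK : KC κ ε w A C₀) (h0 : 0 < C₀)
    (hC : 2 * C₀ ≤ C) {X : ℕ → Mf} {F : ∀ n, Dat (X n).M} {r : ℕ → ℝ}
    (h : ∀ n, Adm c κ CD (F n) (r n) ∧ (F n).δ ≤ 1 / (n + 1) ∧
      16 * ((n : ℝ) + 1) ^ 2 ≤ r n ^ 2 * sc (F n) ∧ (F n).t = 0 ∧ sc (F n) = 1 ∧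
      1 / 2 ≤ (F n).h ^ 2) :
    (∀ A, ∃ C > 0, ∀ᶠ n in hyperfilter ℕ, DT C A ((F n).g (F n).t) (F n).U (F n).x) ∧
    ∃ A, ∀ᶠ n in hyperfilter ℕ, NT ε A w ((F n).g (F n).t) (F n).U (F n).x := by
  obtain ⟨m, hm⟩ := step1 hS hT hA hL hP hK h0 hC
  have r1 : ∀ n : ℕ, 4 * ((n : ℝ) + 1) ≤ r n := fun n => by
    have := (h n).2.2.1
    rw [(h n).2.2.2.2.1] at this
    exact (abs_le_of_sq_le_sq' (by linarith) (h n).1.pos.le).2
  have hB := bu_of hS (l := hyperfilter ℕ) (L := 4 * ((m : ℝ) + 1) ^ 2)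
    (ε := ε) (C := C) (A := A) (w := w) (fun n => ⟨(h n).1, (h n).2.2.2.1, (h n).2.2.2.2.1⟩)
    (tendsto_r fun n => by linarith [r1 n, n.cast_nonneg (α := ℝ)]) (by
      filter_upwards [ev_ge m] with n hn W s y H h5
      have h6 : 4 ≤ (r n / 2) ^ 2 := by nlinarith [r1 n, n.cast_nonneg (α := ℝ)]
      have h7 : 0 < ((m : ℝ) + 1) ^ 2 := by positivity
      refine hm.use hn ((h n).1.at hS H) (h n).2.1 ?_ ?_
      · change _ ≤ _ * Sc ((F n).g s) y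
        nlinarith
      · change _ ≤ (F n).h ^ 2 * Sc ((F n).g s) y
        nlinarith [(h n).2.2.2.2.2])
  have k := out hS hT hA hL (P := ⟨c, κ, CD, ε, C, A, w, 4 * ((m : ℝ) + 1) ^ 2⟩) rfl
    ⟨hP.c1, hP.κ0, hP.CD0, hP.ε0, hP.εe, hP.C1, hP.A1, hP.w0, by positivity⟩ hB
    (tendsto_delta (fun n => (h n).1.bas.dpos) fun n => (h n).2.1) hK h0
  simp only [(h _).2.2.2.1]
  exact ⟨k.1, k.2.1⟩

theorem step3 (hP : Cs.Ok ⟨c, κ, CD, ε, C, A, w, 5⟩ e) (hK : KC κ ε w A C₀) (h0 : 0 < C₀)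
    (hC : 2 * C₀ ≤ C) : ∃ A' ≥ A, ∃ C' ≥ 1, ∃ n : ℕ, Cl c κ CD n fun _ F =>
      1 / 2 ≤ F.h ^ 2 * sc F → Gd ε C' A' w F := by
  obtain ⟨n₁, h1⟩ := cl_of (c := c) (κ := κ) (CD := CD) (Φ := fun n _ F => F.t = 0 → sc F = 1 →
    1 / 2 ≤ F.h ^ 2 → NT ε (A + n) w (F.g F.t) F.U F.x) fun X F r h => by
      simp only [not_forall] at h
      choose k1 k2 k3 k4 k5 k6 k7 using h
      obtain ⟨A', k⟩ := (step2 hS hT hA hL hP hK h0 hC fun n =>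
        ⟨k1 n, k2 n, k3 n, k4 n, k5 n, k6 n⟩).2
      obtain ⟨n, k8, k9⟩ := (k.and ((tendsto_r fun n => le_rfl).eventually_ge_atTop (A' - A))).exists
      exact k7 n (hS.ntMono _ _ _ _ _ _ _ _ (by linarith) k8)
  obtain ⟨n₂, h2⟩ := cl_of (c := c) (κ := κ) (CD := CD) (Φ := fun n _ F => F.t = 0 → sc F = 1 →
    1 / 2 ≤ F.h ^ 2 → DT (n + 1) (A + n₁) (F.g F.t) F.U F.x) fun X F r h => by
      simp only [not_forall] at h
      choose k1 k2 k3 k4 k5 k6 k7 using h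
      obtain ⟨C', k0, k⟩ := (step2 hS hT hA hL hP hK h0 hC fun n =>
        ⟨k1 n, k2 n, k3 n, k4 n, k5 n, k6 n⟩).1 (A + n₁)
      obtain ⟨n, k8, k9⟩ := (k.and ((tendsto_r fun n => le_rfl).eventually_ge_atTop C')).exists
      exact k7 n (hS.dtMono _ _ _ _ _ _ _ _ (one_pos.trans_eq (k5 n).symm) k0.le (by linarith)
        le_rfl k8)
  refine ⟨A + n₁, le_add_of_nonneg_right n₁.cast_nonneg, n₂ + 1,
    le_add_of_nonneg_left n₂.cast_nonneg, max n₁ n₂, fun X F r k1 k2 k3 k4 => ?_⟩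
  have hQ : 0 < sc F := (mul_pos_iff_of_pos_left (pow_pos k1.bas.hpos 2)).1 (by linarith)
  have e1 : sc (F.rs (sc F)) = 1 := (sc_rs hQ).trans (div_self hQ.ne')
  have e2 : (√(sc F) * r) ^ 2 * sc (F.rs (sc F)) = r ^ 2 * sc F := by
    rw [e1, mul_pow, sq_sqrt hQ.le]; ring
  have e3 : 1 / 2 ≤ (F.rs (sc F)).h ^ 2 := by
    change _ ≤ (√(sc F) * F.h) ^ 2
    rw [mul_pow, sq_sqrt hQ.le]; linarith
  have m1 : ∀ k ≤ max n₁ n₂, 16 * ((k : ℕ) + 1 : ℝ) ^ 2 ≤ (√(sc F) * r) ^ 2 * sc (F.rs (sc F)) :=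
    fun k hk => e2 ▸ le_trans (by gcongr) k3
  exact (gd_rs hS k1.bas hQ).1 ⟨one_pos.trans_eq e1.symm,
    h2.use (le_max_right _ _) (k1.rs hS hQ) k2 (m1 _ (le_max_right _ _)) rfl e1 e3,
    h1.use (le_max_left _ _) (k1.rs hS hQ) k2 (m1 _ (le_max_left _ _)) rfl e1 e3⟩

omit hL in
theorem cnloc (hK : KCN) (hL : LCN) : CNLOC := by
  intro c hc
  obtain ⟨e, he, hL⟩ := hL c
  refine ⟨e, he, fun ε hε κ hκ w hw CD hCD => ?_⟩
  obtain ⟨A₁, hK⟩ := hK κ hκ ε hε.1 w hw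
  obtain ⟨C₁, c1, k1⟩ := hK (max A₁ 1000) (le_max_left _ _)
  have ok : ∀ C ≥ 1, ∀ A ≥ 1000, Cs.Ok ⟨c, κ, CD, ε, C, A, w, 5⟩ e := fun C hC A hA =>
    ⟨hc, hκ, hCD, hε.1, hε.2, hC, hA, hw, by norm_num⟩
  obtain ⟨A, a1, C₂, c2, m, hm⟩ := step3 hS hT hA hL (ok _ (le_max_right (2 * C₁) 1) _
    (le_max_right _ _)) k1 c1 (le_max_left _ _)
  obtain ⟨C₃, c3, k3⟩ := hK A ((le_max_left _ _).trans a1)
  have a2 : 1000 ≤ A := (le_max_right _ _).trans a1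
  have c4 : 1 ≤ max (2 * C₃) C₂ := le_trans c2 (le_max_right _ _)
  obtain ⟨n, hn⟩ := cl_of (c := c) (κ := κ) (CD := CD)
    (Φ := fun _ _ F => Gd ε (max (2 * C₃) C₂) A w F) fun X F r h => by
      refine klim hS hT hA hL (ok _ c4 _ a2) k3 c3 (le_max_left _ _) h fun F' H η h1 h2 => ?_
      have h3 : η ^ 2 ≤ 1 / 2 := by
        refine le_of_tendsto (h2.pow 2) ?_
        filter_upwards [ev_ge (4 * m + 4)] with n hn
        obtain ⟨p1, p2, p3, p4, p5⟩ := H n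
        have q0 : 0 < sc (F' n) := sqrt_pos.1 ((div_pos_iff_of_pos_left (by positivity)).1 p5.pos)
        rw [mul_pow, sq_sqrt q0.le, ← p1, mul_comm]
        refine le_of_not_ge fun h4 => p4 (gd_mono hS (hm.use (by omega) p5 (p2.trans_le (h n).2.1)
          ?_ h4) (by linarith) (le_max_right _ _))
        have h5 : (4 * m + 4 : ℝ) ≤ n := by exact_mod_cast hn
        rw [div_pow, sq_sqrt q0.le, div_mul_cancel₀ _ q0.ne']
        nlinarith [m.cast_nonneg (α := ℝ)]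
      nlinarith
  exact ⟨_, c4, A, a2, 16 * ((n : ℝ) + 1) ^ 2, by positivity, 1 / (n + 1), by positivity,
    fun X F r h1 h2 h4 h5 h6 => hn X F r ⟨h1, h4, h5⟩ h2 h6⟩

end Vale.Agent.P216EO
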