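import Vale.Agent.P216EO.Tok
import Vale.Agent.P216FB.Defs

/-! # P216EO: existence of heat histories on a Ricci flow with surgery -/

open scoped Manifold ContDiff Topology ENNReal
open Set MeasureTheory Real
open Filter hiding comap comap_id

set_option maxSynthPendingDepth 3
set_option linter.unusedSectionVars false

noncomputable section

namespace Vale.Agent.P216EO

open P216R P216LS P216FB
open P216ST (Sm0 SmF HEAT)

/-- induction over the surgery times; the flow restarts only at a surgery time -/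
theorem surg_ind' {M : Type} {b d : M → ℝ} {T₀ T₁ : ℝ} (hf : (range b ∪ range d).Finite)
    {P Q : ℝ → Prop} (h0 : Q T₀)
    (hflow : ∀ s t, T₀ ≤ s → s < t → t ≤ T₁ → Gap b d s t → (s = T₀ ∨ s ∈ range b ∪ range d) →
      Q s → P t)
    (hsurg : ∀ t ∈ Ioo T₀ T₁, P t → Q t) : ∀ t ∈ Ioc T₀ T₁, P t := by
  classical
  have key : ∀ n : ℕ, ∀ t ∈ Ioc T₀ T₁, (hf.toFinset.filter (· ∈ Ioo T₀ t)).card = n → P t := by
    intro n
    induction n using Nat.strong_induction_on with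
    | _ n ih =>
      intro t ht hn
      by_cases he : (hf.toFinset.filter (· ∈ Ioo T₀ t)).Nonempty
      · obtain ⟨s, hs, hmax⟩ := Finset.exists_max_image _ id he
        have hs' := (Finset.mem_filter.1 hs).2
        have hsT : s < T₁ := hs'.2.trans_le ht.2
        have hlt : (hf.toFinset.filter (· ∈ Ioo T₀ s)).card < n := by
          rw [← hn]
          refine Finset.card_lt_card ⟨fun v hv => ?_, fun hsub => ?_⟩
          · rw [Finset.mem_filter] at hv ⊢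
            exact ⟨hv.1, hv.2.1, hv.2.2.trans hs'.2⟩
          · exact lt_irrefl s (Finset.mem_filter.1 (hsub hs)).2.2
        have hgap : ∀ v ∈ range b ∪ range d, v ∉ Ioo s t := fun v hv hm =>
          absurd (hmax v (Finset.mem_filter.2 ⟨hf.mem_toFinset.2 hv, hs'.1.trans hm.1, hm.2⟩))
            (not_le.2 hm.1)
        exact hflow s t hs'.1.le hs'.2 ht.2
          (fun x => ⟨hgap _ (Or.inl ⟨x, rfl⟩), hgap _ (Or.inr ⟨x, rfl⟩)⟩)
          (Or.inr (hf.mem_toFinset.1 (Finset.mem_filter.1 hs).1))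
          (hsurg s ⟨hs'.1, hsT⟩ (ih _ hlt s ⟨hs'.1, hsT.le⟩ rfl))
      · have hgap : ∀ v ∈ range b ∪ range d, v ∉ Ioo T₀ t := fun v hv hm =>
          he ⟨v, Finset.mem_filter.2 ⟨hf.mem_toFinset.2 hv, hm⟩⟩
        exact hflow T₀ t le_rfl ht.1 ht.2
          (fun x => ⟨hgap _ (Or.inl ⟨x, rfl⟩), hgap _ (Or.inr ⟨x, rfl⟩)⟩) (Or.inl rfl) h0
  exact fun t ht => key _ t ht rfl

/-- the points alive on a gap form a slice at every time of the gap -/
theorem sl_liv {M : Type} {b d : M → ℝ} {T₀ T₁ s t r : ℝ} (hg : Gap b d s t) (h0 : T₀ ≤ s)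
    (hs : s < t) (h1 : t ≤ T₁) (hr : r ∈ Icc s t) : Sl b d T₀ T₁ (Liv b d s t) r := by
  rcases hr.2.eq_or_lt with rfl | hlt
  · exact Or.inl ⟨⟨h0.trans_lt hs, h1⟩, (hg.preS_eq ⟨hs, le_rfl⟩).symm⟩
  · exact Or.inr ⟨⟨h0.trans hr.1, hlt.trans_le h1⟩, (hg.postS_eq ⟨hr.1, hlt⟩).symm⟩

theorem sl_left {M : Type} {b d : M → ℝ} {T₀ T₁ s t : ℝ} {U : Set M} (h : Sl b d s T₁ U t)
    (h0 : T₀ ≤ s) : Sl b d T₀ T₁ U t :=
  h.imp (fun h => ⟨⟨h0.trans_lt h.1.1, h.1.2⟩, h.2⟩) fun h => ⟨⟨h0.trans h.1.1, h.1.2⟩, h.2⟩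

variable {M : Type} [TopologicalSpace M] [ChartedSpace E3 M] [IsManifold 𝓘(ℝ, E3) ∞ M]
  {g : ℝ → Ten E3 M} {U : Set M} {a c a' c' t : ℝ} {u v : ℝ → M → ℝ}

theorem smF_slice {I : Set ℝ} (h : SmF E3 u I U) (ht : t ∈ I) : Sm0 E3 (u t) U := fun a =>
  (h a).comp (f := fun z : E3 => (t, z)) (contDiff_const.prodMk contDiff_id).contDiffOn
    fun _ hz => ⟨ht, hz⟩

theorem ht_mono (h : Ht g a c U u) (hs : Icc a' c' ⊆ Icc a c) : Ht g a' c' U u :=
  ⟨fun a => (h.sm a).mono (prod_mono hs Subset.rfl),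
    fun t ht x hx => (h.eqn t (hs ht) x hx).mono hs⟩

theorem ht_congr (h : Ht g a c U u) (hU : IsOpen U) (e : ∀ t ∈ Icc a c, EqOn (v t) (u t) U) :
    Ht g a c U v := by
  refine ⟨fun a => (h.sm a).congr fun p hp => e p.1 hp.1 hp.2.2, fun t ht x hx => ?_⟩
  rw [lap_congr (EventuallyEq.refl _ _) (mem_of_superset (hU.mem_nhds hx) (e t ht))]
  exact (h.eqn t ht x hx).congr (fun s hs => e s hs hx) (e t ht hx)

theorem ht_sub (h : Ht g a c U u) (hU : IsOpen U) (k : ℝ) :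
    Ht g a c U fun t x => k - u t x := by
  refine ⟨fun a => contDiffOn_const.sub (h.sm a), fun t ht x hx => ?_⟩
  rw [P216MP.lap_sub (P216MP.sa_const k) ((sm0_iff hU).1 (smF_slice h.sm ht) x hx).rd,
    P216MP.lap_const]
  exact (hasDerivWithinAt_const _ _ k).sub (h.eqn t ht x hx)

theorem wb_congr {g : Ten E3 M} {τ : ℝ} {u v : M → ℝ} (h : Wb g U τ u) (hU : IsOpen U)
    (e : EqOn v u U) : Wb g U τ v := by
  refine ⟨fun x hx => e hx ▸ h.pos x hx, fun x hx => e hx ▸ h.le x hx, fun x hx => ?_⟩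
  have e1 : v =ᶠ[𝓝 x] u := mem_of_superset (hU.mem_nhds hx) e
  rw [gam_congr rfl e1 e1, e hx]
  exact h.grad x hx

theorem exists_ht (h1 : HEAT E3) (hg : RF g (Icc a c) U) (hac : a < c) (hc : IsCompact U)
    (hH : Hs U) {f : M → ℝ} (hf : Sm0 E3 f U) : ∃ v, Ht g a c U v ∧ v a = f := by
  obtain ⟨v, h2, h3, h4⟩ := h1 M U g a c (fun _ _ => 0) (fun _ _ => 0) (fun _ _ => 0) f hc hH hac
    hg.toFam (fun _ => contDiffOn_const) (fun _ => contDiffOn_const) (fun _ => contDiffOn_const) hf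
  refine ⟨v, ⟨h2, fun t ht x hx => ?_⟩, h3⟩
  simpa [gam_zero (g t) (EventuallyEq.refl _ _)] using h4 t ht x hx

variable [MeasurableSpace M] [BorelSpace M]

/-- the state of a weight on a slice -/
structure Cur (g : Ten E3 M) (U : Set M) (τ ε B : ℝ) (u : M → ℝ) : Prop where
  sm : Sm0 E3 u U
  wb : Wb g U τ u
  mass : ∫ x in U, (1 + ε - u x) ∂vol g ≤ B

theorem Cur.congr {g : Ten E3 M} {τ ε B : ℝ} {u v : M → ℝ} (h : Cur g U τ ε B u) (hU : IsOpen U)
    (e : EqOn v u U) : Cur g U τ ε B v :=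
  ⟨fun a => (h.sm a).congr fun _ hz => e hz.2, wb_congr h.wb hU e,
    (setIntegral_congr_fun hU.measurableSet fun x hx => by simp only [e hx]).trans_le h.mass⟩

theorem int_split {g : Ten E3 M} {u : M → ℝ} (hg : Met g U) (hc : IsCompact U) (h : Sm0 E3 u U)
    (ε : ℝ) : ∫ x in U, (1 + ε - u x) ∂vol g =
      ∫ x in U, (1 - u x) ∂vol g + ε * (vol g U).toReal := by
  have e : (fun x => 1 + ε - u x) = fun x => (1 - u x) + ε := by funext x; ring
  rw [e, integral_add (f := fun x => 1 - u x)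
    (int_of hg hc (continuousOn_const.sub (sm0_cont hg.isOpen h)))
    (int_of hg hc continuousOn_const), setIntegral_const, smul_eq_mul, mul_comm]
  rfl

/-- the surgery step -/
theorem cur_surg (h4 : CLAMP) {g : Ten E3 M} {U' : Set M} {τ ε B : ℝ} {u : M → ℝ} (hτ : 0 < τ)
    (hε : 0 ≤ ε) (hg : Met g U) (hc : IsCompact U) (hg' : Met g U') (hc' : IsCompact U')
    (hC : Col g U U' ε) (h : Cur g U τ ε B u) :
    ∃ u', Cur g U' τ ε B u' ∧ EqOn u' u U := by
  obtain ⟨u', h1, h2, h3⟩ := h4 M g U U' τ u hτ hg hg' hC.caps h.sm h.wb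
  have e : EqOn u' u U := fun x hx => h3 x fun h => h.2 hx
  refine ⟨u', ⟨h1, h2, le_trans ?_ h.mass⟩, e⟩
  have hm := hg.isOpen.measurableSet
  have i1 : IntegrableOn (fun x => 1 - u x) U (vol g) :=
    int_of hg hc (continuousOn_const.sub (sm0_cont hg.isOpen h.sm))
  have i2 : IntegrableOn (fun x => 1 - u' x) U' (vol g) :=
    int_of hg' hc' (continuousOn_const.sub (sm0_cont hg'.isOpen h1))
  have f1 := (vol_lt_top hg hc Subset.rfl).ne
  have f2 := (vol_lt_top hg' hc' Subset.rfl).ne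
  have f3 : vol g (U' \ U) ≠ ⊤ := ne_top_of_le_ne_top f2 (measure_mono sdiff_subset)
  have a1 : ∫ x in U' ∩ U, (1 - u' x) ∂vol g ≤ ∫ x in U, (1 - u x) ∂vol g := by
    rw [setIntegral_congr_fun (g := fun x => 1 - u x) (hg'.isOpen.measurableSet.inter hm)
      fun x hx => by simp only [e hx.2]]
    exact setIntegral_mono_set i1 ((ae_restrict_iff' hm).2 (Eventually.of_forall fun x hx =>
      sub_nonneg.2 (h.wb.le x hx))) inter_subset_right.eventuallyLE
  have a2 : ∫ x in U' \ U, (1 - u' x) ∂vol g ≤ (vol g (U' \ U)).toReal := by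
    refine (setIntegral_mono_on (g := fun _ => (1 : ℝ)) (i2.mono_set sdiff_subset)
      (integrableOn_const f3) (hg'.isOpen.measurableSet.diff hm) fun x hx => ?_).trans_eq ?_
    · linarith [h2.pos x hx.1]
    · rw [setIntegral_const, smul_eq_mul, mul_one]; rfl
  have a3 := ENNReal.toReal_mono (ENNReal.mul_ne_top ENNReal.ofReal_ne_top f1) hC.drop
  rw [ENNReal.toReal_add f3 (ENNReal.mul_ne_top ENNReal.ofReal_ne_top f2), ENNReal.toReal_mul,
    ENNReal.toReal_mul, ENNReal.toReal_ofReal hε] at a3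
  rw [int_split hg hc h.sm, int_split hg' hc' h1, ← integral_inter_add_sdiff hm i2]
  linarith

/-- the flow step -/
theorem cur_flow (h2 : HAM) (h3 : MASS) {s₁ ε R₀ I : ℝ} (hs : s₁ ≤ a) (hac : a < c)
    (hg : RF g (Icc a c) U) (hc : IsCompact U) (hH : Hs U) (hε : 0 ≤ ε)
    (hR : ∀ t ∈ Icc a c, ∀ x ∈ U, -R₀ ≤ Sc (g t) x) (hv : Ht g a c U v)
    (h : Cur (g a) U (a - s₁) ε (exp (R₀ * (a - s₁)) * I) (v a)) (ht : t ∈ Icc a c) :
    Cur (g t) U (t - s₁) ε (exp (R₀ * (t - s₁)) * I) (v t) := by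
  have hw := h2 M g U a c s₁ v hs hac hg hc hH hv h.wb
  refine ⟨smF_slice hv.sm ht, hw t ht, ?_⟩
  rcases ht.1.eq_or_lt with rfl | hlt
  · exact h.mass
  have hsub : Icc a t ⊆ Icc a c := Icc_subset_Icc_right ht.2
  refine (h3 M g U a t R₀ _ hlt (SF.rf_sub hg hsub hg.isOpen Subset.rfl) hc hH
    (ht_sub (ht_mono hv hsub) hg.isOpen (1 + ε)) fun r hr x hx =>
      ⟨by linarith [(hw r (hsub hr)).le x hx], hR r (hsub hr) x hx⟩).trans ?_
  refine (mul_le_mul_of_nonneg_left h.mass (exp_pos _).le).trans_eq ?_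
  rw [← mul_assoc, ← exp_add]
  congr 2
  ring

theorem hex (h1 : HEAT E3) (h2 : HAM) (h3 : MASS) (h4 : CLAMP) : HEX := by
  intro M _ _ _ _ _ g b d T₀ T₁ s₁ T ε R₀ V u₀ hS h0 hT hT1 hε hR0 hC hR hu0 hu1 hV
  set I := ∫ x in postS b d s₁, (1 + ε - u₀ x) ∂vol (g s₁) with hI
  have sl : ∀ {U t t'}, Sl b d s₁ t' U t → t' ≤ T → Sl b d T₀ T₁ U t := fun h h' =>
    (sl_left h h0).mono (h'.trans hT1)
  let H : ℝ → (ℝ → M → ℝ) → Prop := fun t u => u s₁ = u₀ ∧
    (∀ a c, s₁ ≤ a → a < c → c ≤ t → Gap b d a c → Ht g a c (Liv b d a c) u) ∧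
    ∀ U r, Sl b d s₁ t U r → Cur (g r) U (r - s₁) ε (exp (R₀ * (r - s₁)) * I) (u r)
  have key := surg_ind' (T₀ := s₁) (T₁ := T) hS.fin (P := fun t => ∃ u, H t u)
    (Q := fun t => ∃ u, H t u ∧
      Cur (g t) (postS b d t) (t - s₁) ε (exp (R₀ * (t - s₁)) * I) (u t)) ?_ ?_ ?_ T ⟨hT, le_rfl⟩
  · obtain ⟨u, k1, k2, k3⟩ := key
    refine ⟨u, ⟨k2, fun U t h => (k3 U t h).wb, fun U t h => ?_⟩, k1⟩
    have hI0 : 0 ≤ I := setIntegral_nonneg (hS.sl_open (sl (sl_post ⟨le_rfl, hT⟩) le_rfl)).measurableSet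
      fun x hx => by linarith [(hu1 x hx).2]
    have e1 := (k3 U t h).mass
    rw [int_split (hS.met (sl h le_rfl)) (hS.sl_cpt (sl h le_rfl)) (k3 U t h).sm] at e1
    have e2 : exp (R₀ * (t - s₁)) * I ≤ exp (R₀ * (T - s₁)) * I := by
      gcongr
      exact h.mem_Icc.2
    have e3 : 0 ≤ ε * (vol (g t) U).toReal := by positivity
    linarith
  · refine ⟨fun _ => u₀, ⟨rfl, fun a c k1 k2 k3 _ => absurd (k1.trans_lt k2) (not_lt.2 k3),
      fun U r h => ?_⟩, hu0, ⟨fun x hx => (hu1 x hx).1, fun x hx => (hu1 x hx).2, fun x hx => ?_⟩,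
      by simp [hI]⟩
    · rcases h with h | h
      exacts [absurd h.1.1 (not_lt.2 h.1.2), absurd h.1.2 (not_lt.2 h.1.1)]
    · rw [sub_self, zero_mul]
      refine mul_nonneg (sq_nonneg _) (log_nonneg ?_)
      rw [le_div_iff₀ (hu1 x hx).1]
      linarith [(hu1 x hx).2]
  · rintro s t k1 k2 k3 hg hb ⟨u, ⟨m1, m2, m3⟩, m4⟩
    have hrf := hS.rf s t k2 (k3.trans hT1)
    have hcp := hS.isCompact_liv k2 (k3.trans hT1) hg
    have hhs := hS.hs s t k2 (k3.trans hT1)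
    rw [hg.postS_eq ⟨le_rfl, k2⟩] at m4
    obtain ⟨v, v1, v2⟩ := exists_ht h1 hrf k2 hcp hhs m4.sm
    have e1 : ∀ r ≤ s, (if r ≤ s then u r else v r) = u r := fun r hr => if_pos hr
    have e2 : ∀ r, s ≤ r → (if r ≤ s then u r else v r) = v r := fun r hr => by
      split_ifs with h
      · rw [le_antisymm h hr, v2]
      · rfl
    have new : ∀ r ∈ Icc s t, Cur (g r) (Liv b d s t) (r - s₁) ε (exp (R₀ * (r - s₁)) * I) (v r) :=
      fun r hr => cur_flow h2 h3 k1 k2 hrf hcp hhs hε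
        (fun r hr => hR _ r (sl_liv hg k1 k2 k3 hr)) v1 (v2 ▸ m4) hr
    refine ⟨fun r => if r ≤ s then u r else v r, (e1 _ k1).trans m1, fun a c n1 n2 n3 n4 => ?_,
      fun U r h => ?_⟩
    · have ho := hS.isOpen_liv n2 (n3.trans (k3.trans hT1))
      by_cases hc : c ≤ s
      · exact ht_congr (m2 a c n1 n2 hc n4) ho fun r hr x _ => congrFun (e1 r (hr.2.trans hc)) x
      have ha : s ≤ a := by
        by_contra ha
        rcases hb with rfl | ⟨x, rfl⟩ | ⟨x, rfl⟩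
        exacts [ha n1, (n4 x).1 ⟨not_le.1 ha, not_le.1 hc⟩, (n4 x).2 ⟨not_le.1 ha, not_le.1 hc⟩]
      rw [← n4.postS_eq ⟨le_rfl, n2⟩, hg.postS_eq ⟨ha, n2.trans_le n3⟩]
      exact ht_congr (ht_mono v1 (Icc_subset_Icc ha n3)) hrf.isOpen fun r hr x _ =>
        congrFun (e2 r (ha.trans hr.1)) x
    · rcases h with ⟨hr, rfl⟩ | ⟨hr, rfl⟩
      · by_cases h : r ≤ s
        · simpa only [e1 r h] using m3 _ r (sl_pre ⟨hr.1, h⟩)
        · simpa only [e2 r (not_le.1 h).le, hg.preS_eq ⟨not_le.1 h, hr.2⟩] using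
            new r ⟨(not_le.1 h).le, hr.2⟩
      · by_cases h : r < s
        · simpa only [e1 r h.le] using m3 _ r (sl_post ⟨hr.1, h⟩)
        · simpa only [e2 r (not_lt.1 h), hg.postS_eq ⟨not_lt.1 h, hr.2⟩] using
            new r ⟨not_lt.1 h, hr.2.le⟩
  · rintro t ht ⟨u, m1, m2, m3⟩
    have s1 := sl (sl_pre (b := b) (d := d) ⟨ht.1, le_rfl⟩) ht.2.le
    have s2 := sl (sl_post (b := b) (d := d) ⟨ht.1.le, ht.2⟩) le_rfl
    obtain ⟨u', n1, n2⟩ := cur_surg h4 (sub_pos.2 ht.1) hε (hS.met s1) (hS.sl_cpt s1) (hS.met s2)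
      (hS.sl_cpt s2) (hC t ht) (m3 _ t (sl_pre ⟨ht.1, le_rfl⟩))
    have e : ∀ r (W : Set M), (r = t → W ⊆ preS b d t) →
        EqOn (Function.update u t u' r) (u r) W := fun r W hW => by
      by_cases h : r = t
      · subst h
        rw [Function.update_self]
        exact n2.mono (hW rfl)
      · rw [Function.update_of_ne h]
        exact fun _ _ => rfl
    refine ⟨Function.update u t u', ⟨(Function.update_of_ne ht.1.ne _ _).trans m1,
      fun a c k1 k2 k3 k4 => ?_, fun U r h => ?_⟩, by rwa [Function.update_self]⟩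
    · refine ht_congr (m2 a c k1 k2 k3 k4) (hS.isOpen_liv k2 (k3.trans (ht.2.le.trans hT1)))
        fun r hr => e r _ fun h => liv_subset_preS ⟨k2.trans_le k3, h ▸ hr.2⟩
    · refine (m3 U r h).congr (hS.sl_open (sl h ht.2.le)) (e r _ fun h' => ?_)
      rcases h with ⟨-, rfl⟩ | ⟨hr, -⟩
      exacts [h' ▸ Subset.rfl, absurd h' hr.2.ne]

end Vale.Agent.P216EO
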