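import Vale.Agent.P216FB.Plan
import Vale.Agent.P216BF.Real
import Vale.Agent.P216BF.Curv
import Vale.Agent.P216B.Top

/-! # P216EO: region functions, environments, point picking -/

open scoped Manifold ContDiff Topology ENNReal
open Set MeasureTheory Real

set_option maxSynthPendingDepth 3
set_option linter.unusedSectionVars false

noncomputable section

namespace Vale.Agent.P216EO

open P216R P216FB P216FA P216DC P216BF

theorem sInf_le_add {S S' : Set ℝ} {c : ℝ} (hS : S.Nonempty) (hS' : BddBelow S')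
    (h : ∀ A ∈ S, A + c ∈ S') : sInf S' ≤ sInf S + c :=
  sub_le_iff_le_add.1 (le_csInf hS fun A hA => sub_le_iff_le_add.2 (csInf_le hS' (h A hA)))

theorem cE_nonneg : 0 ≤ cE := by unfold cE cD; positivity

theorem adp : ADP := by
  intro M _ _ _ _ _ g b d T t₀ r₀ B κ N hS hc hr hB hR hN
  let S : ℝ → M → Set ℝ := fun s y => {A | 0 ≤ A ∧ (N A s y ∨ B + r₀ ≤ A)}
  have ne : ∀ s y, (S s y).Nonempty := fun s y => ⟨B + r₀, by positivity, Or.inr le_rfl⟩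
  have bd : ∀ s y, BddBelow (S s y) := fun s y => ⟨0, fun A hA => hA.1⟩
  have key : ∀ s y s' y' c, 0 ≤ c → (∀ A, N A s y → N (A + c) s' y') →
      sInf (S s' y') ≤ sInf (S s y) + c := fun s y s' y' c h0 h =>
    sInf_le_add (ne s y) (bd s' y') fun A hA =>
      ⟨add_nonneg hA.1 h0, hA.2.imp (h A) fun h => by linarith⟩
  refine ⟨fun _ s y => sInf (S s y), ⟨fun W s hW _ y hy z hz => ?_,
    fun W s hW _ y hy ρ h0 h1 σ h2 h3 h4 h5 => ?_, fun W s hW _ y hy h => hN W s hW y hy ?_⟩,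
    fun W s y A h0 h => csInf_le (bd s y) ⟨h0, Or.inl h⟩⟩
  · refine le_of_forall_pos_le_add fun η hη => ?_
    rw [add_assoc]
    exact key s y s z _ (add_nonneg ENNReal.toReal_nonneg hη.le) fun A hA => hR.lip hW hA
      (mem_bl_iff.2 ⟨(hS.met hW).ed_ne_top (hc W s hW) subset_rfl hy hz, by linarith⟩)
  · refine key s y _ y _ (mul_nonneg cE_nonneg h0.le) fun A hA => ?_
    have := hR.back (a := 4) hW hy hA (by positivity) h1 (by norm_num) (le_of_eq (by field_simp; ring))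
      (by nlinarith) h5 ⟨le_rfl, by linarith⟩ h4
    rwa [show cD 4 * (2 * ρ) = cE * ρ by unfold cE; ring] at this
  · obtain ⟨A, hA, hlt⟩ := exists_lt_of_csInf_lt (ne s y) (h.trans_lt (lt_add_of_pos_right B hr))
    exact hR.mono hlt.le (hA.2.resolve_right (not_le.2 hlt))

variable {M : Type} [TopologicalSpace M] [ChartedSpace E3 M] [IsManifold 𝓘(ℝ, E3) ∞ M]
  [MeasurableSpace M]

theorem pin_mono {g : Ten E3 M} {U : Set M} {a a' : ℝ} (hg : Met g U) (h : Pin g U a')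
    (ha : 0 < a) (h' : a ≤ a') : Pin g U a := fun y hy η hη =>
  secGe_mono hg hy (h y hy η hη) (neg_le_neg (max_le_max le_rfl (by gcongr)))

theorem prec_sl {b d : M → ℝ} {T₀ T₁ s t : ℝ} {U W : Set M} (h : Prec b d U t W s)
    (hU : Sl b d T₀ T₁ U t) (h0 : T₀ ≤ s) : Sl b d T₀ T₁ W s ∧ s ≤ t := by
  rcases h with ⟨rfl, rfl⟩ | ⟨h, rfl⟩
  exacts [⟨hU, le_rfl⟩, ⟨sl_post ⟨h0, h.trans_le hU.mem_Icc.2⟩, h.le⟩]

theorem env : ENV := by
  intro M _ _ _ _ _ c g b d T h δ t₀ r₀ B κ s r τ a D W y hF hD hr ht hW hy hs hτ h2 hB ha ha'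
  have h0 : r₀ ^ 2 < s - τ := by nlinarith
  have h1 : 0 < s - τ := (sq_nonneg _).trans_lt h0
  have sl : ∀ {W' s' y'}, Dat.Reg ⟨g, b, d, 0, T, W, s, y, D, h, δ⟩ r τ W' s' y' →
      Sl b d 0 T W' s' ∧ s' ∈ Icc (t₀ - r₀ ^ 2 / 2) t₀ := fun h =>
    have := prec_sl h.prec hW (h1.le.trans h.le)
    ⟨this.1, hτ.trans h.le, this.2.trans hs⟩
  refine ⟨h1, fun W' s' hW' hs' => ?_, fun W' s' y' H z hz => ?_,
    fun W' s' y' H ρ hρ σ hσ k1 k2 => ?_, fun W' s' y' H ρ hρ => ?_⟩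
  · exact pin_mono (hF.sf.met hW') (hF.pin W' s' hW' (h1.trans_le hs'.1)) ha
      (ha'.trans (h0.le.trans hs'.1))
  · exact hD.d1 W' s' (sl H).1 (sl H).2 y' H.mem z hz
  · exact hD.d2 W' s' (sl H).1 (sl H).2.2 y' H.mem ρ hρ.1 (by linarith [hρ.2]) σ hσ.1 hσ.2
      (hτ.trans k1) k2
  · exact hD.nc W' s' (sl H).1 (sl H).2 y' H.mem (H.dle.trans hB) ρ
      ⟨hρ.1, by linarith [hρ.1, hρ.2]⟩

theorem pp : PP := by
  intro P A₀ δ₀ hCD hL hA hLC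
  refine ⟨8 * A₀ + 4 * A₀ ^ 2, by positivity, ?_⟩
  intro M _ _ _ _ _ g b d T h δ t₀ r₀ B D hF hδ hr ht hD W₀ s₀ y₀ hW hs hy hB hq
  by_contra hcn
  obtain ⟨Θ, hΘ⟩ := hF.bdd
  set Q₀ := Sc (g s₀) y₀ with hQ₀
  have hQ : 0 < Q₀ := lt_of_lt_of_le (by positivity) hq
  rw [div_le_iff₀ (by positivity)] at hq
  have a1 : 2 * (A₀ / Q₀) ≤ r₀ ^ 2 / 4 := by
    rw [← mul_div_assoc, div_le_iff₀ hQ]; nlinarith [sq_nonneg A₀]
  have a2 : 2 * (A₀ / √Q₀) ≤ r₀ := by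
    rw [← mul_div_assoc, div_le_iff₀ (sqrt_pos.2 hQ)]
    refine abs_le_of_sq_le_sq' ?_ (by positivity) |>.2
    rw [mul_pow r₀, sq_sqrt hQ.le]; nlinarith
  obtain ⟨⟨W, s, y⟩, ⟨p1, p2, p3, p4, p5, p6⟩, hz, hN⟩ := pick (X := Set M × ℝ × M) (c := 4)
    (B := Θ) (y := (W₀, s₀, y₀)) (Q := fun z => Sc (g z.2.1) z.2.2)
    (P := fun z => Sl b d 0 T z.1 z.2.1 ∧ z.2.2 ∈ z.1 ∧
      ¬ CN P.ε P.C P.A P.w (g z.2.1) z.1 z.2.2 ∧ z.2.1 ≤ t₀ ∧
      t₀ - r₀ ^ 2 / 4 - 2 * (A₀ / Q₀) + 2 * (A₀ / Sc (g z.2.1) z.2.2) ≤ z.2.1 ∧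
      D z.1 z.2.1 z.2.2 + 2 * (A₀ / √(Sc (g z.2.1) z.2.2)) ≤ B + 2 * (A₀ / √Q₀))
    (N := fun z w => Dat.Reg ⟨g, b, d, 0, T, z.1, z.2.1, z.2.2, D, h, δ⟩
      (A₀ / √(Sc (g z.2.1) z.2.2)) (A₀ / Sc (g z.2.1) z.2.2) w.1 w.2.1 w.2.2 ∧
      ¬ CN P.ε P.C P.A P.w (g w.2.1) w.1 w.2.2) (by norm_num)
    ⟨hW, hy, hcn, hs.2, (sub_add_cancel _ _).trans_le hs.1,
      add_le_add hB le_rfl⟩ hQ
    (fun z hz => hΘ _ _ hz.1 _ hz.2.1) (by
      rintro ⟨W, s, y⟩ ⟨W', s', y'⟩ ⟨p1, p2, p3, p4, p5, p6⟩ hz ⟨H, hn⟩ hlt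
      have k0 : 0 < Sc (g s) y := hQ.trans_le hz
      have k1 : s - A₀ / Sc (g s) y ≤ s' := H.le
      have k2 : D W' s' y' ≤ D W s y + A₀ / √(Sc (g s) y) := H.dle
      have k3 : 0 < A₀ / Sc (g s) y := by positivity
      have k4 := half_scale hA.le k0 hlt.le
      have k5 : 2 * (A₀ / Sc (g s') y') ≤ A₀ / Sc (g s) y := by
        dsimp only at hlt
        rw [← mul_div_assoc, div_le_div_iff₀ (by linarith) k0]; nlinarith
      dsimp only at p5 p6 k4 ⊢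
      have k6 := prec_sl H.prec p1 (by nlinarith)
      exact ⟨k6.1, H.mem, hn, k6.2.trans p4, by linarith, by linarith⟩)
  dsimp only at p1 p2 p3 p4 p5 p6 hz hN
  have k0 : 0 < Sc (g s) y := hQ.trans_le hz
  have k3 : 0 < A₀ / Sc (g s) y := by positivity
  have k4 : 0 < A₀ / √(Sc (g s) y) := by positivity
  have k5 : A₀ / Sc (g s) y ≤ A₀ / Q₀ := by gcongr
  have k6 : A₀ / √(Sc (g s) y) ≤ A₀ / √Q₀ := by gcongr
  refine p3 (hLC M ⟨g, b, d, 0, T, W, s, y, D, h, δ⟩ hδ k0 ⟨hF.bas W s y D p1 p2, ?_,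
    fun W' s' y' H h5 => ?_⟩)
  · rw [hCD]
    exact env M P.c g b d T h δ t₀ r₀ _ P.κ s _ _ _ D W y hF hD hr ht p1 p2 p4 (by linarith)
      (by linarith) (by linarith) k3 (by nlinarith)
  · by_contra hn
    have := hN (W', s', y') ⟨H, hn⟩
    rw [hL] at h5
    dsimp only at this h5
    linarith

end Vale.Agent.P216EO
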