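import Vale.Agent.P216FA.Plan
import Vale.Agent.P216U.Stab
import Vale.Agent.P216BF.Real

/-! # P216EO: canonical neighbourhoods at points of large curvature: bookkeeping -/

open scoped Manifold ContDiff Topology ENNReal
open Set MeasureTheory Filter Real

set_option maxSynthPendingDepth 3
set_option linter.unusedSectionVars false

noncomputable section

namespace Vale.Agent.P216EO

open P216R P216FA P216DC P216BF

/-- the scalar curvature at the base point -/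
abbrev sc {X : Mf} (F : Dat X.M) : ℝ := Sc (F.g F.t) F.x

/-- the hypotheses of the local theorem -/
structure Adm (c : ℕ → ℝ) (κ CD : ℝ) {X : Mf} (F : Dat X.M) (r : ℝ) : Prop where
  bas : F.Bas c
  pos : 0 < r
  env : F.Env κ CD r (r ^ 2) (r ^ 2)

/-- the base point has a canonical neighbourhood -/
abbrev Gd (ε C A w : ℝ) {X : Mf} (F : Dat X.M) : Prop := CN ε C A w (F.g F.t) F.U F.x

variable (hS : SCALE) {c : ℕ → ℝ} {κ CD ε C A w L Q r r' τ τ' s : ℝ} {X : Mf} {F : Dat X.M}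
  {W : Set X.M} {y : X.M}

theorem reg_mono (h : F.Reg r τ W s y) (h1 : r ≤ r') (h2 : τ ≤ τ') : F.Reg r' τ' W s y :=
  ⟨h.prec, by linarith [h.le], h.mem, by linarith [h.dle]⟩

theorem reg_self (h : F.x ∈ F.U) (h1 : 0 ≤ r) (h2 : 0 ≤ τ) : F.Reg r τ F.U F.t F.x :=
  ⟨Or.inl ⟨rfl, rfl⟩, by linarith, h, by linarith⟩

theorem sc_rs (hQ : 0 < Q) : sc (F.rs Q) = sc F / Q := by
  change Sc (resc F.g Q F.t 0) F.x = _
  rw [resc_zero, sc_sc hQ]

include hS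

theorem Adm.sl (h : Adm c κ CD F r) (H : F.Reg r' (r ^ 2) W s y) :
    Sl F.b F.d F.T₀ F.T₁ W s := hS.regSl X F c r' _ W s y h.bas h.env.init H

theorem Adm.mono (h : Adm c κ CD F r) (h0 : 0 < r') (h1 : r' ≤ r) : Adm c κ CD F r' :=
  ⟨h.bas, h0, hS.envMono X F κ CD _ _ _ _ _ _ h.env h1 (by gcongr) (by positivity)
    (by gcongr) fun _ _ hW => h.bas.sf.met hW⟩

theorem Adm.rs (h : Adm c κ CD F r) (hQ : 0 < Q) : Adm c κ CD (F.rs Q) (√Q * r) := by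
  refine ⟨hS.rsBas X F c Q hQ h.bas, mul_pos (sqrt_pos.2 hQ) h.pos, ?_⟩
  rw [mul_pow, sq_sqrt hQ.le]
  exact hS.rsEnv X F c Q κ CD _ _ _ hQ h.bas h.env

theorem Adm.at (h : Adm c κ CD F r) (H : F.Reg (r / 2) (r ^ 2 / 2) W s y) :
    Adm c κ CD (F.at W s y) (r / 2) := by
  have h0 := h.pos
  have h1 := hS.atBas X F c W s y h.bas (h.sl hS (reg_mono H le_rfl (by nlinarith))) H.mem
  exact ⟨h1, by positivity, hS.envMono X _ κ CD _ _ _ _ _ _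
    (hS.atEnv X F κ CD _ _ _ _ _ W s y h.env (by positivity) (by positivity) H) (by linarith)
    (by nlinarith) (by positivity) (by nlinarith) fun _ _ hW => h1.sf.met hW⟩

theorem gd_rs (h : F.Bas c) (hQ : 0 < Q) : Gd ε C A w (F.rs Q) ↔ Gd ε C A w F := by
  change CN ε C A w (resc F.g Q F.t 0) F.U F.x ↔ _
  rw [resc_zero]
  exact hS.rsCN X _ _ _ Q ε C A w hQ (hS.clo X F c _ _ h h.sl) h.mem

theorem Adm.cnr_rs (h : Adm c κ CD F r) (hQ : 0 < Q) (H : F.CNR ε C A w r (r ^ 2) (L * Q)) :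
    (F.rs Q).CNR ε C A w (√Q * r) ((√Q * r) ^ 2) L := fun W s y h1 h2 => by
  rw [mul_pow, sq_sqrt hQ.le, hS.rsReg X F Q _ _ W s y hQ] at h1
  have h3 : L ≤ Sc (Q • F.g (F.t + s / Q)) y := h2
  rw [sc_sc hQ, le_div_iff₀ hQ] at h3
  exact (hS.rsCN X _ _ _ Q ε C A w hQ (hS.clo X F c _ _ h.bas (h.sl hS h1)) h1.mem).2
    (H W _ y h1 h3)

/-- point picking among the points without canonical neighbourhoods -/
theorem Adm.pick (h : Adm c κ CD F r) {N : ℝ} (hN : 0 < N) (hq : 16 * N ^ 2 ≤ r ^ 2 * sc F)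
    (hb : ¬ Gd ε C A w F) : ∃ F' : Dat X.M, F'.h = F.h ∧ F'.δ = F.δ ∧ sc F ≤ sc F' ∧
      ¬ Gd ε C A w F' ∧ Adm c κ CD F' (N / √(sc F')) ∧
      F'.CNR ε C A w (N / √(sc F')) ((N / √(sc F')) ^ 2) (5 * sc F') := by
  obtain ⟨Θ, hΘ⟩ := hS.sfb X _ _ _ _ _ h.bas.sf
  have hr := h.pos
  have hQ : 0 < sc F := (mul_pos_iff_of_pos_left (pow_pos hr 2)).1
    (lt_of_lt_of_le (by positivity) hq)
  have a1 : 2 * (N ^ 2 / sc F) ≤ r ^ 2 / 2 := by
    rw [← mul_div_assoc, div_le_iff₀ hQ]; nlinarith [sq_nonneg N]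
  have a2 : 2 * (N / √(sc F)) ≤ r / 2 := by
    rw [← mul_div_assoc, div_le_iff₀ (sqrt_pos.2 hQ)]
    refine abs_le_of_sq_le_sq' ?_ (by positivity) |>.2
    rw [mul_pow (r / 2), sq_sqrt hQ.le]; nlinarith
  have small : ∀ {W s y q}, 0 < q → F.Reg (2 * (N / √(sc F)) - 2 * (N / √q))
      (2 * (N ^ 2 / sc F) - 2 * (N ^ 2 / q)) W s y → F.Reg (r / 2) (r ^ 2 / 2) W s y :=
    fun {W s y q} hq H => reg_mono H (by linarith [show 0 < N / √q by positivity])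
      (by linarith [show 0 < N ^ 2 / q by positivity])
  obtain ⟨⟨W, s, y⟩, ⟨p0, p1, p2⟩, hz, hM⟩ := P216BF.pick (X := Set X.M × ℝ × X.M) (c := 4)
    (B := Θ) (y := (F.U, F.t, F.x)) (Q := fun z => Sc (F.g z.2.1) z.2.2)
    (P := fun z => 0 < Sc (F.g z.2.1) z.2.2 ∧ ¬ CN ε C A w (F.g z.2.1) z.1 z.2.2 ∧
      F.Reg (2 * (N / √(sc F)) - 2 * (N / √(Sc (F.g z.2.1) z.2.2)))
        (2 * (N ^ 2 / sc F) - 2 * (N ^ 2 / Sc (F.g z.2.1) z.2.2)) z.1 z.2.1 z.2.2)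
    (N := fun z v => (F.at z.1 z.2.1 z.2.2).Reg (N / √(Sc (F.g z.2.1) z.2.2))
      (N ^ 2 / Sc (F.g z.2.1) z.2.2) v.1 v.2.1 v.2.2 ∧ ¬ CN ε C A w (F.g v.2.1) v.1 v.2.2)
    (by norm_num) ⟨hQ, hb, reg_self h.bas.mem (sub_self _).ge (sub_self _).ge⟩ hQ
    (fun z hz => hΘ _ _ (h.sl hS (reg_mono (small hz.1 hz.2.2) le_rfl (by nlinarith))) _
      hz.2.2.mem) (by
      rintro ⟨W, s, y⟩ ⟨W', s', y'⟩ ⟨p0, p1, p2⟩ hz ⟨H, hn⟩ hlt
      dsimp only at p0 hlt p2 H ⊢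
      have k4 := half_scale hN.le p0 hlt.le
      have k5 : 2 * (N ^ 2 / Sc (F.g s') y') ≤ N ^ 2 / Sc (F.g s) y := by
        rw [← mul_div_assoc, div_le_div_iff₀ (by linarith) p0]; nlinarith [sq_nonneg N]
      exact ⟨by linarith, hn, reg_mono (hS.atReg X F _ _ _ _ _ _ _ _ _ _ p2 H) (by linarith)
        (by linarith)⟩)
  dsimp only at p0 p1 p2 hz hM
  have k6 : N / √(Sc (F.g s) y) ≤ N / √(sc F) := by gcongr
  have k7 : 0 < N / √(Sc (F.g s) y) := by positivity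
  refine ⟨F.at W s y, rfl, rfl, hz, p1, (h.at hS (small p0 p2)).mono hS k7
    (k6.trans (by linarith)), fun W' s' y' H h5 => ?_⟩
  by_contra hn
  have e : (N / √(sc (F.at W s y))) ^ 2 = N ^ 2 / Sc (F.g s) y := by
    rw [div_pow]; exact congrArg _ (sq_sqrt p0.le)
  rw [e] at H
  have h6 := hM (W', s', y') ⟨H, hn⟩
  have h7 : 5 * Sc (F.g s) y ≤ Sc (F.g s') y' := h5
  dsimp only at h6
  linarith

/-- normalised sequences are blow up sequences -/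
theorem bu_of {ι : Type} {l : Filter ι} {X : ι → Mf} {F : ∀ n, Dat (X n).M} {r : ι → ℝ}
    (h : ∀ n, Adm c κ CD (F n) (r n) ∧ (F n).t = 0 ∧ sc (F n) = 1) (hr : Tendsto r l atTop)
    (H : ∀ᶠ n in l, (F n).CNR ε C A w (r n / 2) (r n ^ 2 / 2) L) :
    BU ⟨c, κ, CD, ε, C, A, w, L⟩ l F := by
  refine ⟨fun n => ⟨(h n).1.bas, (h n).2.1, (h n).2.1 ▸ (h n).2.2⟩, fun B hB => ?_⟩
  filter_upwards [H, hr.eventually_ge_atTop (2 * B), hr.eventually_ge_atTop 1] with n h1 h2 h3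
  exact ⟨(h n).1.bas, hS.envMono _ _ κ CD _ _ _ _ _ _ (h n).1.env (by linarith) (by nlinarith) hB
    (by nlinarith) fun _ _ hW => (h n).1.bas.sf.met hW,
    fun W s y k1 k2 => h1 W s y (reg_mono k1 (by linarith) (by nlinarith)) k2⟩

theorem gd_mono {C' : ℝ} (h : Gd ε C A w F) (h0 : 0 ≤ C) (h1 : C ≤ C') : Gd ε C' A w F :=
  ⟨h.pos, hS.dtMono X _ _ _ _ _ _ _ h.pos h0 h1 le_rfl h.dt, h.nt⟩

omit hS in
/-- in the presence of a cap the limit has no long almost lines and has thin balls -/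
theorem ntp_of (hA : ALS) {g : Ten E3 X.M} {U : Set X.M} {x : X.M} {V : ℝ} (h : NN g U)
    (hx : x ∈ U) (hw : 0 < w) (hs : ¬ ∃ b, Spl g U b)
    (hV : ∀ ρ ≥ 1, vol g (bl g U x ρ) ≤ ENNReal.ofReal (V * ρ)) : ∃ A, NTp ε A w g U x := by
  obtain ⟨a, ha⟩ := not_forall.1 fun H => hs (hA X g U x 2 h hx H)
  have h1 : 1 ≤ max 1 (4 * V / w) := le_max_left _ _
  have h2 : 4 * V ≤ max 1 (4 * V / w) * w := (div_le_iff₀ hw).1 (le_max_right _ _)
  refine ⟨max a (max 1 (4 * V / w)), fun H => (ha (P216U.al_mono H (le_max_left _ _) le_rfl)).elim,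
    max 1 (4 * V / w), ⟨h1, le_max_right _ _⟩, (hV _ (by linarith)).trans
      (ENNReal.ofReal_le_ofReal ?_)⟩
  generalize max 1 (4 * V / w) = ρ at h1 h2
  have h3 : ρ * w ≤ ρ ^ 2 * w := by gcongr; nlinarith
  nlinarith

end Vale.Agent.P216EO
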