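import Vale.Agent.P216T2.Stm
import Mathlib.Analysis.Convex.Contractible
import Mathlib.Analysis.Convex.PathConnected
import Mathlib.AlgebraicTopology.FundamentalGroupoid.SimplyConnected
import Mathlib.Topology.UniformSpace.Path
import Mathlib.Topology.Algebra.Order.Floor

/-! # P216EO: the cocycle with values in the fundamental group; commuting classes give tori -/

open Set Filter Topology unitInterval
open Path.Homotopic.Quotient

noncomputable section

namespace Vale.Agent.P216EO

open Vale.Agent.P216 Vale.Agent.P216T2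

section Lf

variable {M G : Type} [MetricSpace M] [Group G] {C : LocalCocycle M G}
  {Y Z : Type} [TopologicalSpace Y] [TopologicalSpace Z] {p : Y → M} {a a' : Y → G}

theorem lf_comp (h : Lf C p a) {θ : Z → Y} (hθ : Continuous θ) : Lf C (p ∘ θ) (a ∘ θ) :=
  fun s => hθ.continuousAt.eventually (h (θ s))

theorem lf_unique [PreconnectedSpace Y] (h : Lf C p a) (h' : Lf C p a') {y : Y} (e : a y = a' y)
    (z : Y) : a z = a' z := by
  have hl : IsLocallyConstant fun s => a s * (a' s)⁻¹ := by
    refine (IsLocallyConstant.iff_eventually_eq _).2 fun s => ?_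
    filter_upwards [h s, h' s] with s' h1 h2
    rw [h1, h2]
    group
  have := hl.apply_eq_of_preconnectedSpace z y
  rw [e, mul_inv_cancel] at this
  exact mul_inv_eq_one.1 this

end Lf

variable {M : Type} [MetricSpace M] {x₀ : M} (κ : ∀ y, Path x₀ y) {a b c : M}

/-- the class of a path, closed up by the chosen paths from the base point -/
def cl (q : Path a b) : FundamentalGroup M x₀ :=
  FundamentalGroup.fromPath (((mk (κ b)).trans (mk q).symm).trans (mk (κ a)).symm)

theorem cl_hom {q q' : Path a b} (h : q.Homotopic q') : cl κ q = cl κ q' := by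
  rw [cl, cl, Path.Homotopic.Quotient.eq.2 h]

theorem symm_trans' (P : Path.Homotopic.Quotient a b) (Q : Path.Homotopic.Quotient b c) :
    (P.trans Q).symm = Q.symm.trans P.symm := by
  induction P using Path.Homotopic.Quotient.ind
  induction Q using Path.Homotopic.Quotient.ind
  rw [← mk_trans, ← mk_symm, Path.trans_symm, mk_trans, mk_symm, mk_symm]

theorem symm_symm' (P : Path.Homotopic.Quotient a b) : P.symm.symm = P := by
  induction P using Path.Homotopic.Quotient.ind
  rw [← mk_symm, ← mk_symm, Path.symm_symm]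

theorem cl_trans (q : Path a b) (r : Path b c) : cl κ (q.trans r) = cl κ q * cl κ r := by
  rw [FundamentalGroup.mul_def]
  simp only [cl, FundamentalGroup.fromPath, FundamentalGroup.fromArrow, mk_trans, symm_trans',
    trans_assoc]
  rw [← trans_assoc (symm (mk (κ b))), symm_trans, refl_trans]

theorem cl_congr {a' b' : M} {q : Path a b} {q' : Path a' b'} (h : ∀ t, q t = q' t) :
    cl κ q = cl κ q' := by
  obtain rfl : a = a' := by rw [← q.source, h, q'.source]
  obtain rfl : b = b' := by rw [← q.target, h, q'.target]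
  rw [show q = q' from Path.ext (funext h)]

theorem cl_refl (a : M) : cl κ (Path.refl a) = 1 := by
  have := cl_trans κ (Path.refl a) (Path.refl a)
  rw [Path.refl_trans_refl] at this
  exact left_eq_mul.1 this

theorem cl_inj {q q' : Path a b} (h : cl κ q = cl κ q') : q.Homotopic q' := by
  have key : ∀ q : Path a b, (((mk (κ b)).symm.trans (cl κ q)).trans (mk (κ a))).symm = mk q := by
    intro q
    simp only [cl, FundamentalGroup.fromPath, FundamentalGroup.fromArrow, trans_assoc]
    rw [← trans_assoc (symm (mk (κ b))), symm_trans, refl_trans, symm_trans, trans_refl,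
      symm_symm']
  rw [← Path.Homotopic.Quotient.eq, ← key, h, key]

theorem cl_surj (a : M) (g : FundamentalGroup M x₀) : ∃ q : Path a a, cl κ q = g := by
  obtain ⟨q, hq⟩ := mk_surjective (((mk (κ a)).symm.trans g).trans (mk (κ a))).symm
  refine ⟨q, ?_⟩
  simp only [cl, FundamentalGroup.fromPath, FundamentalGroup.fromArrow, hq, symm_symm',
    trans_assoc]
  rw [← trans_assoc (mk (κ a)), trans_symm, refl_trans, trans_refl]

section Arc

variable {Y : Type} [NormedAddCommGroup Y] [NormedSpace ℝ Y] {p : Y → M} (hp : Continuous p)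

/-- the class of the image of a segment -/
def arc (y z : Y) : FundamentalGroup M x₀ := cl κ ((Path.segment y z).map hp)

theorem arc_self (y : Y) : arc κ hp y y = 1 :=
  (cl_congr κ (q' := Path.refl (p y)) fun t => by simp).trans (cl_refl κ _)

theorem arc_mul (x y z : Y) : arc κ hp x y * arc κ hp y z = arc κ hp x z := by
  rw [arc, arc, ← cl_trans, ← Path.map_trans]
  exact cl_hom κ ((SimplyConnectedSpace.paths_homotopic _ _).map ⟨p, hp⟩)

end Arc

theorem arc_extend (q : Path a b) : arc κ q.continuous_extend 0 1 = cl κ q :=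
  cl_congr κ fun t => by simp [Path.segment, AffineMap.lineMap_apply]

variable {s : ∀ x y : M, Path x y} {r₀ : ℝ}

/-- the cocycle -/
def pc (hs : ∀ x y t, dist (s x y t) x ≤ dist x y) (h0 : 0 < r₀) (hS : SmallPathsHomotopic M r₀) :
    LocalCocycle M (FundamentalGroup M x₀) where
  r := r₀ / 3
  r_pos := by positivity
  coc x y := cl κ (s x y)
  mul' x y z h1 h2 h3 := by
    rw [← cl_trans]
    refine cl_hom κ (hS x x z _ _ (fun t => ?_) fun t => by linarith [hs x z t])
    have : ((s x y).trans (s y z)) t ∈ range ((s x y).trans (s y z)) := mem_range_self t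
    rw [Path.trans_range] at this
    rcases this with ⟨u, hu⟩ | ⟨u, hu⟩
    · rw [← hu]; linarith [hs x y u]
    · rw [← hu]
      linarith [hs y z u, dist_triangle (s y z u) y x, dist_comm y x]

variable (hs : ∀ x y t, dist (s x y t) x ≤ dist x y) (h0 : 0 < r₀) (hS : SmallPathsHomotopic M r₀)

section Arc

variable {Y : Type} [NormedAddCommGroup Y] [NormedSpace ℝ Y] {p : Y → M} (hp : Continuous p)

theorem arc_eq {y z : Y} {η : ℝ} (h : ∀ w, dist w y < η → dist (p w) (p y) < r₀)
    (hz : dist z y < η) : arc κ hp y z = (pc κ hs h0 hS).coc (p y) (p z) := by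
  refine cl_hom κ (hS (p y) _ _ _ _ (fun t => h _ ?_) fun t =>
    (hs _ _ t).trans_lt (dist_comm (p z) (p y) ▸ h z hz))
  have : Path.segment y z t ∈ segment ℝ y z := Path.range_segment y z ▸ mem_range_self t
  exact (convex_ball y η).segment_subset (Metric.mem_ball_self (dist_nonneg.trans_lt hz)) hz this

theorem lf_arc (y : Y) : Lf (pc κ hs h0 hS) p (arc κ hp y) := fun z => by
  obtain ⟨η, hη, h⟩ := Metric.continuousAt_iff.1 (hp.continuousAt (x := z)) r₀ h0
  filter_upwards [Metric.ball_mem_nhds z hη] with w hw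
  rw [← arc_eq κ hs h0 hS hp (fun _ => @h _) hw, arc_mul]

end Arc

theorem based (g : FundamentalGroup M x₀) :
    ∃ n : ℕ, 0 < n ∧ (pc κ hs h0 hS).HasBased x₀ 1 g n := by
  obtain ⟨q, rfl⟩ := cl_surj κ x₀ g
  obtain ⟨η, hη, h⟩ := Metric.uniformContinuous_iff.1 q.uniformContinuous_extend (r₀ / 6)
    (by positivity)
  obtain ⟨n, hn⟩ := exists_nat_one_div_lt hη
  have hd : ∀ i : ℕ, dist (((i + 1 : ℕ) : ℝ) / (n + 1)) ((i : ℝ) / (n + 1)) < η := fun i => by
    rw [Real.dist_eq, ← sub_div, Nat.cast_succ, add_sub_cancel_left, abs_of_pos (by positivity)]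
    exact hn
  have key : ∀ k : ℕ, (pc κ hs h0 hS).P (fun i => q.extend (i / (n + 1))) k =
      arc κ q.continuous_extend 0 (k / (n + 1)) := fun k => by
    induction k with
    | zero => simp [arc_self]
    | succ k ih =>
      rw [LocalCocycle.P_succ, ih, ← arc_eq κ hs h0 hS q.continuous_extend
        (fun w hw => (h hw).trans (by linarith)) (hd k), arc_mul]
  have e1 : ((n + 1 : ℕ) : ℝ) / (n + 1) = 1 := by
    rw [Nat.cast_succ]; exact div_self (by positivity)
  refine ⟨n + 1, n.succ_pos, fun i => q.extend (i / (n + 1)), by simp, by simp only [e1]; simp,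
    fun i _ => ?_, ?_⟩
  · rw [dist_comm]
    exact (h (hd i)).trans_eq (by simp only [pc]; ring)
  · rw [key, e1, arc_extend, one_mul, inv_one, mul_one]

omit κ in
/-- the square of two commuting loops -/
theorem exists_square {γ η : Path a a} (h : (η.trans γ).Homotopic (γ.trans η)) :
    ∃ (Φ : ℝ → ℝ → M) (θ : ℝ → ℝ), Continuous (Function.uncurry Φ) ∧ Continuous θ ∧ θ 0 = 0 ∧
      θ 1 = 1 ∧ (∀ s, Φ s 0 = η.extend (θ s)) ∧ (∀ s, Φ s 1 = η.extend (θ s)) ∧
      ∀ t ∈ I, Φ 0 t = γ.extend t ∧ Φ 1 t = γ.extend t := by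
  obtain ⟨H⟩ := h
  let π : ℝ → I := projIcc 0 1 zero_le_one
  have hπ : Continuous π := continuous_projIcc
  have p0 : ∀ r ≤ 0, π r = 0 := fun r hr => projIcc_of_le_left _ hr
  have p1 : ∀ r, 1 ≤ r → π r = 1 := fun r hr => projIcc_of_right_le _ hr
  have H0 : ∀ r, H (0, π r) = (η.trans γ).extend r := fun r => H.apply_zero _
  have H1 : ∀ r, H (1, π r) = (γ.trans η).extend r := fun r => H.apply_one _
  refine ⟨fun s t => H (π (1 - 3 * s + 2 * t), π (((π (3 * s - 1) : ℝ) + t) / 2)),
    fun s => π (3 * s - 1), by unfold Function.uncurry; fun_prop, by fun_prop,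
    congrArg Subtype.val (p0 _ (by norm_num)), congrArg Subtype.val (p1 _ (by norm_num)),
    fun s => ?_, fun s => ?_, fun t ht => ⟨?_, ?_⟩⟩ <;> beta_reduce
  · rcases le_total (3 * s) 1 with h | h
    · rw [p0 (3 * s - 1) (by linarith), p0 (_ / 2) (by simp), H.source]
      simp
    · rw [p0 (1 - 3 * s + 2 * 0) (by linarith), H0,
        Path.extend_trans_of_le_half _ _ (by linarith [(π (3 * s - 1)).2.2])]
      congr 1
      ring
  · rcases le_total (3 * s) 2 with h | h
    · rw [p1 (1 - 3 * s + 2 * 1) (by linarith), H1,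
        Path.extend_trans_of_half_le _ _ (by linarith [(π (3 * s - 1)).2.1])]
      congr 1
      ring
    · rw [p1 (3 * s - 1) (by linarith), p1 (_ / 2) (by simp), H.target]
      simp
  · rw [p1 (1 - 3 * 0 + 2 * t) (by linarith [ht.1]), p0 (3 * 0 - 1) (by norm_num), H1,
      Path.extend_trans_of_le_half _ _ (by simp; linarith [ht.2])]
    congr 1
    simp; ring
  · rw [p0 (1 - 3 * 1 + 2 * t) (by linarith [ht.2]), p1 (3 * 1 - 1) (by norm_num), H0,
      Path.extend_trans_of_half_le _ _ (by simp; linarith [ht.1])]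
    congr 1
    simp; ring

theorem tor : Tor (pc κ hs h0 hS) := by
  intro c L f h hc hL hper hf0 hf hcm
  have hcL : c L = c 0 := by simpa using hper 0
  let γ : Path (c 0) (c 0) := ⟨⟨fun t => c (t * L), by fun_prop⟩, by simp, by simp [hcL]⟩
  have hγ : f L = cl κ γ := by
    rw [lf_unique hf (lf_arc κ hs h0 hS hc 0) (y := 0) (by rw [hf0, arc_self]) L]
    exact cl_congr κ fun t => by simp [γ, Path.segment, AffineMap.lineMap_apply]
  obtain ⟨η, rfl⟩ := cl_surj κ (c 0) h
  obtain ⟨Φ, θ, h1, h2, h3, h4, h5, h6, h7⟩ := exists_square (γ := γ) (η := η)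
    (cl_inj κ (by rw [cl_trans, cl_trans, ← hγ, hcm.eq]))
  have k1 : Continuous fun z : ℝ × ℝ => Φ z.1 (Int.fract (z.2 / L)) :=
    (h1.continuousOn.comp_fract' fun s => by rw [h5, h6]).comp
      (f := fun z : ℝ × ℝ => (z.1, z.2 / L)) (by fun_prop)
  have k2 : ∀ t, γ.extend (Int.fract (t / L)) = c t := fun t => by
    rw [Path.extend_apply _ (fract_mem _)]
    change c (Int.fract (t / L) * L) = c t
    rw [Int.fract, sub_mul, div_mul_cancel₀ _ hL.ne', hper.sub_int_mul_eq]
  refine ⟨_, arc κ k1 0, k1, fun s t => ?_, fun t => ((h7 _ (fract_mem _)).1).trans (k2 t),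
    fun t => ((h7 _ (fract_mem _)).2).trans (k2 t), lf_arc κ hs h0 hS k1 0, arc_self κ k1 0, ?_⟩
  · simp only [add_div, div_self hL.ne', Int.fract_add_one]
  · have l1 := lf_comp (lf_arc κ hs h0 hS k1 0) (θ := fun s : ℝ => (s, 0)) (by fun_prop)
    have l2 := lf_comp (lf_arc κ hs h0 hS η.continuous_extend 0) h2
    have e : (fun z : ℝ × ℝ => Φ z.1 (Int.fract (z.2 / L))) ∘ (fun s : ℝ => (s, (0 : ℝ))) =
        η.extend ∘ θ := funext fun s => by simp [h5]
    rw [e] at l1
    have := lf_unique l1 l2 (y := 0) (by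
      simp only [Function.comp_apply, h3, arc_self]; exact arc_self κ k1 0) 1
    simpa only [Function.comp_apply, h4, arc_extend] using this

theorem t2c : T2C := by
  intro M _ x₀ r₀ hM h0 hS
  choose s hs using fun x y => hM.exists_path x y
  exact ⟨_, inferInstance, MulEquiv.refl _, pc (s x₀) hs h0 hS, based _ hs h0 hS, tor _ hs h0 hS⟩

end Vale.Agent.P216EO
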