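import Vale.Agent.P216T2.Stm

/-! # P216EO: the oriented list of closed geodesics -/

open Set Filter Topology

noncomputable section

namespace Vale.Agent.P216EO

open Vale.Agent.P216 Vale.Agent.P216T2

variable {M : Type} [MetricSpace M] {c : ℝ → M} {l : ℝ}

/-- a closed geodesic is an isometry at a uniform scale -/
theorem ev_scale (hc : IsGeodesicWithSpeed c 1) (hl : 0 < l) (hp : Function.Periodic c l) :
    ∀ᶠ δ in 𝓝[>] (0 : ℝ), ∀ s t, |s - t| ≤ δ → dist (c s) (c t) = |s - t| := by
  choose ε h0 h1 using hc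
  obtain ⟨δ, hδ, h2⟩ := lebesgue_number_lemma_of_metric (isCompact_Icc (a := 0) (b := l))
    (c := fun t => Metric.ball t (ε t)) (fun _ => Metric.isOpen_ball)
    fun t _ => mem_iUnion.2 ⟨t, Metric.mem_ball_self (h0 t)⟩
  filter_upwards [mem_nhdsWithin_of_mem_nhds (Iio_mem_nhds hδ)] with δ' hδ' s t hst
  have hs := toIcoMod_mem_Ico' hl s
  obtain ⟨u, hu⟩ := h2 _ (Ico_subset_Icc_self hs)
  have e : s - toIcoDiv hl 0 s * l = toIcoMod hl 0 s := by
    rw [← zsmul_eq_mul]; rfl
  have e1 : s - toIcoDiv hl 0 s * l - (t - toIcoDiv hl 0 s * l) = s - t := by ring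
  have := h1 u (s - toIcoDiv hl 0 s * l) (t - toIcoDiv hl 0 s * l)
    (hu (e ▸ Metric.mem_ball_self hδ)) (hu (by
      rw [← e, Metric.mem_ball, dist_comm, Real.dist_eq, e1]
      exact hst.trans_lt hδ'))
  rwa [hp.sub_int_mul_eq, hp.sub_int_mul_eq, e1, one_mul] at this

/-- a geodesic is not its own reflection -/
theorem not_refl (hc : IsGeodesicWithSpeed c 1) {b : ℝ} (h : ∀ t, c t = c (b - t)) : False := by
  obtain ⟨ε, h0, h1⟩ := hc (b / 2)
  have := h1 (b / 2 + ε / 2) (b - (b / 2 + ε / 2)) (by rw [abs_lt]; constructor <;> linarith)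
    (by rw [abs_lt]; constructor <;> linarith)
  rw [← h, dist_self, one_mul, eq_comm, abs_eq_zero] at this
  linarith

/-- the sign of an orientation -/
def sgn (e : Bool) : ℝ := if e then 1 else -1

theorem sgn_or (e : Bool) : sgn e = 1 ∨ sgn e = -1 := by cases e <;> simp [sgn]

theorem sgn_sq (e : Bool) : sgn e * sgn e = 1 := by cases e <;> simp [sgn]

theorem t2d : T2D := by
  intro M G _ _ C L
  have := L.fin
  let c : L.ι × Bool → ℝ → M := fun j t => L.c j.1 (sgn j.2 * t)
  have geo : ∀ j, IsGeodesicWithSpeed (c j) 1 := fun j => by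
    simpa using (L.geo j.1).comp_affine (sgn_or j.2) 0
  have per : ∀ j, Function.Periodic (c j) (L.ℓ j.1) := by
    rintro ⟨j, _ | _⟩ t
    · exact (congrArg (L.c j) (by simp [sgn]; ring)).trans ((L.per j).sub_eq (sgn false * t))
    · simpa [c, sgn] using L.per j t
  have rg : ∀ j b, range (fun t => c j (t + b)) = range (L.c j.1) := fun j b =>
    Function.Surjective.range_comp (f := fun t => sgn j.2 * (t + b))
      (fun u => ⟨sgn j.2 * u - b, by simp only [sub_add_cancel, ← mul_assoc, sgn_sq, one_mul]⟩) _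
  obtain ⟨δ, ⟨h1, h2⟩, h3⟩ := (((eventually_all.2 fun j =>
    ev_scale (geo j) (L.ℓ_pos j.1) (per j)).and (mem_nhdsWithin_of_mem_nhds
      (Iio_mem_nhds (show (0 : ℝ) < C.r / 3 by linarith [C.r_pos])))).and
      self_mem_nhdsWithin).exists
  have h4 : 3 * δ < C.r := by linarith
  choose f f0 hf using fun j => C.exists_lift (c := c j)
    (fun s t => by simpa using (geo j).dist_le s t) h3 h4
  refine ⟨⟨C, L.ι × Bool, inferInstance, c, fun j => L.ℓ j.1, f, δ, h3, h4, fun j => L.ℓ_pos j.1,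
    geo, per, fun γ hγ p hp hper => ?_, ?_, h1, f0, hf⟩, rfl⟩
  · obtain ⟨j, e, he, b, hb⟩ := L.all γ hγ p hp hper
    rcases he with rfl | rfl
    · exact ⟨(j, true), b, fun t => by simp [c, sgn, hb]⟩
    · exact ⟨(j, false), -b, fun t => by simp [c, sgn, hb, add_comm]⟩
  · rintro ⟨i, e⟩ ⟨j, e'⟩ b h
    obtain rfl : i = j := L.inj i j (by
      rw [← rg (i, e) 0, ← rg (j, e') b]
      simp only [add_zero, h])
    have h' : ∀ u, L.c i u = L.c i (sgn e' * (sgn e * u + b)) := fun u => by
      simpa only [c, ← mul_assoc, sgn_sq, one_mul] using h (sgn e * u)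
    by_cases he : e = e'
    · subst he
      obtain ⟨m, hm⟩ := L.prime i (sgn e * b) fun u => by
        rw [h' u, mul_add, ← mul_assoc, sgn_sq, one_mul]
      refine ⟨rfl, ?_⟩
      rcases sgn_or e with h1 | h1
      · exact ⟨m, by simpa [h1] using hm⟩
      · exact ⟨-m, by rw [h1] at hm; push_cast; linarith⟩
    · refine (not_refl (L.geo i) (b := sgn e' * b) fun u => (h' u).trans ?_).elim
      congr 1
      cases e <;> cases e' <;> simp [sgn] at he ⊢ <;> ring

end Vale.Agent.P216EO
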